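import Vale.Agent.P166F.Defs
import Vale.Agent.P166F.Ent.Slopes

/-!
P166: concavity of the field functional in the variances, and the entropy of overlap paths.
-/

namespace Vale.Agent.P166F

open MeasureTheory Vale.Agent.P157.Low Set

variable {k : ℕ}

/-- The slope of the single spin at the field `y`. -/
noncomputable def chainSlope (m r : Fin (k + 1) → ℝ) (l : Fin (k + 1)) : ℝ :=
  pairRoot m (incr r) (fun y => Real.log (Real.cosh y)) Real.tanh Real.tanh l

/-- Field paths. -/
def fieldPaths (k : ℕ) : Set (Fin (k + 1) → ℝ) := {r | Monotone r ∧ ∀ l, 0 ≤ r l}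

lemma chainSlope_eq (m r : Fin (k + 1) → ℝ) : chainSlope m r = slopeSq m r :=
  funext fun l => pairRoot_eq m r l

theorem concaveOn_xbar {m : Fin (k + 1) → ℝ} (hm : Levels m) :
    ConcaveOn ℝ (fieldPaths k) (xbar m) := by
  have hconv : Convex ℝ (fieldPaths k) := fun x hx y hy u v hu hv _ =>
    ⟨fun i j hij => by
      simp only [Pi.add_apply, Pi.smul_apply, smul_eq_mul]
      exact add_le_add (mul_le_mul_of_nonneg_left (hx.1 hij) hu) (mul_le_mul_of_nonneg_left (hy.1 hij) hv),
    fun l => add_nonneg (mul_nonneg hu (hx.2 l)) (mul_nonneg hv (hy.2 l))⟩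
  refine ⟨hconv, fun x hx y hy u v hu hv huv => ?_⟩
  set z := u • x + v • y with hz
  have hzp : z ∈ fieldPaths k := hconv hx hy hu hv huv
  have h1 := mul_le_mul_of_nonneg_left (xbar_le_tangent hm hzp hx) hu
  have h2 := mul_le_mul_of_nonneg_left (xbar_le_tangent hm hzp hy) hv
  have e : u * dirDeriv m z (fun l => x l - z l) + v * dirDeriv m z (fun l => y l - z l) = 0 := by
    simp only [dirDeriv, hz, Pi.add_apply, Pi.smul_apply, smul_eq_mul]
    rw [← mul_div_assoc, ← mul_div_assoc, ← add_div, mul_neg, mul_neg, ← neg_add, Finset.mul_sum,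
      Finset.mul_sum, ← Finset.sum_add_distrib, Finset.sum_eq_zero fun l _ => ?_, neg_zero, zero_div]
    obtain rfl : v = 1 - u := by linarith
    ring
  simp only [smul_eq_mul]
  have : (u + v) * xbar m z = xbar m z := by rw [huv, one_mul]
  linarith

/-- The gradient of `xbar` is minus half the weighted squared slopes. -/
theorem xbar_dir {m r r' : Fin (k + 1) → ℝ} (hm : Levels m) (hr : r ∈ fieldPaths k)
    (hr' : r' ∈ fieldPaths k) :
    HasDerivWithinAt (fun t : ℝ => xbar m (fun l => r l + t * (r' l - r l)))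
      (-(∑ l, lmass m l * chainSlope m r l * (r' l - r l)) / 2) (Icc 0 1) 0 := by
  obtain ⟨hf, hg, hd⟩ := xbar_line (fun l => (hm.unit l).1) hr hr'
  have h0 : (fun i => r i + 0 * (r' i - r i)) = r := funext fun i => by ring
  refine (hasDerivWithinAt_Ici_of_tendsto_deriv (s := Ioo 0 1)
    (fun t ht => (hd t ht).differentiableAt.differentiableWithinAt)
    ((hf 0 ⟨le_rfl, zero_le_one⟩).mono Ioo_subset_Icc_self) (Ioo_mem_nhdsGT one_pos) ?_).mono
    Icc_subset_Ici_self
  have hlim := hg 0 ⟨le_rfl, zero_le_one⟩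
  rw [ContinuousWithinAt, nhdsWithin_Icc_eq_nhdsGE one_pos] at hlim
  simp only [h0, dirDeriv] at hlim
  rw [chainSlope_eq]
  refine (hlim.mono_left (nhdsWithin_mono _ Ioi_subset_Ici_self)).congr' ?_
  filter_upwards [Ioo_mem_nhdsGT one_pos] with t ht
  rw [(hd t ht).deriv, dirDeriv]

theorem chainSlope_path {m r : Fin (k + 1) → ℝ} (hm : Levels m) (_hr : r ∈ fieldPaths k) :
    Path (chainSlope m r) := by
  rw [chainSlope_eq]
  exact ⟨slopeSq_mono hm r, fun l => (slopeSq_mem hm r l).1, fun l => (slopeSq_mem hm r l).2⟩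

/-- The value at a field path lies below the tangent at another one. -/
lemma value_le {m r : Fin (k + 1) → ℝ} (p : Fin (k + 1) → ℝ) (hm : Levels m) (hr : r ∈ fieldPaths k)
    {a : Fin (k + 1) → ℝ} (ha : a ∈ fieldPaths k) :
    xbar m r + pairing m p r ≤ xbar m a + pairing m (slopeSq m a) a +
      (∑ l, lmass m l * (p l - slopeSq m a l) * r l) / 2 := by
  have h := xbar_le_tangent hm ha hr
  simp only [dirDeriv] at h
  simp only [pairing]
  simp only [mul_sub, sub_mul, Finset.sum_sub_distrib] at h ⊢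
  linarith

/-- The values over all field paths are bounded. -/
lemma bddAbove_values {m p : Fin (k + 1) → ℝ} (hm : Levels m) (hp : Path p) :
    BddAbove {v | ∃ r : Fin (k + 1) → ℝ, Monotone r ∧ (∀ l, 0 ≤ r l) ∧ v = xbar m r + pairing m p r} := by
  obtain ⟨a, ha, hq⟩ := exists_slopeSq_gt hm (hp.ltOne (Fin.last k))
  refine ⟨xbar m a + pairing m (slopeSq m a) a, ?_⟩
  rintro _ ⟨r, h1, h2, rfl⟩
  refine (value_le p hm ⟨h1, h2⟩ ha).trans ?_
  have : ∀ l, lmass m l * (p l - slopeSq m a l) * r l ≤ 0 := fun l =>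
    mul_nonpos_of_nonpos_of_nonneg (mul_nonpos_of_nonneg_of_nonpos (lmass_nonneg hm l)
      (by linarith [hq l, hp.mono (Fin.le_last l)])) (h2 l)
  linarith [Finset.sum_nonpos fun l (_ : l ∈ Finset.univ) => this l]

/-- At its own slopes the entropy is attained. -/
theorem entS_chainSlope {m r : Fin (k + 1) → ℝ} (hm : Levels m) (hr : r ∈ fieldPaths k) :
    entS m (chainSlope m r) = xbar m r + pairing m (chainSlope m r) r := by
  rw [chainSlope_eq]
  refine IsGreatest.csSup_eq ⟨⟨r, hr.1, hr.2, rfl⟩, ?_⟩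
  rintro _ ⟨s, h1, h2, rfl⟩
  simpa using value_le (slopeSq m r) hm (⟨h1, h2⟩ : s ∈ fieldPaths k) hr

theorem le_entS {m p r : Fin (k + 1) → ℝ} (hm : Levels m) (hp : Path p) (hr : r ∈ fieldPaths k) :
    xbar m r + pairing m p r ≤ entS m p :=
  le_csSup (bddAbove_values hm hp) ⟨r, hr.1, hr.2, rfl⟩

/-- Large fields have arbitrarily low values. -/
theorem entS_coercive {m p : Fin (k + 1) → ℝ} (hm : Levels m) (hp : Path p) (M : ℝ) :
    ∃ L, ∀ r ∈ fieldPaths k, L ≤ r (Fin.last k) → xbar m r + pairing m p r ≤ M := by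
  obtain ⟨a, ha, hq⟩ := exists_slopeSq_gt hm (hp.ltOne (Fin.last k))
  set C := xbar m a + pairing m (slopeSq m a) a
  set w := lmass m (Fin.last k) * (slopeSq m a (Fin.last k) - p (Fin.last k))
  have hw : 0 < w := mul_pos (by simp [lmass, hm.ltOne]) (sub_pos.2 (hq _))
  refine ⟨2 * (C - M) / w, fun r hr hL => ?_⟩
  refine (value_le p hm hr ha).trans ?_
  have hrest : ∑ l, lmass m l * (p l - slopeSq m a l) * r l ≤
      lmass m (Fin.last k) * (p (Fin.last k) - slopeSq m a (Fin.last k)) * r (Fin.last k) := by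
    rw [← Finset.sum_erase_add _ _ (Finset.mem_univ (Fin.last k))]
    refine add_le_of_nonpos_left (Finset.sum_nonpos fun l _ => ?_)
    exact mul_nonpos_of_nonpos_of_nonneg (mul_nonpos_of_nonneg_of_nonpos (lmass_nonneg hm l)
      (by linarith [hq l, hp.mono (Fin.le_last l)])) (hr.2 l)
  rw [div_le_iff₀ hw] at hL
  simp only [w] at hL
  linarith

end Vale.Agent.P166F
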