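import Vale.Agent.P166F.Energy.Root
import Vale.Agent.P166F.Energy.Snap

/-!
P166: the R-transform, the energy and its slope in the inverse temperature.
-/

namespace Vale.Agent.P166F

open MeasureTheory Filter Set
open scoped Topology

variable {K k : ℕ}

theorem Atoms.share_spec (a : Atoms K) {s d : ℝ} (hs : 0 < s) (hd : 0 < d) :
    ∑ i, a.share s d i = d ∧ ∀ i j, 0 < a.share s d i ∧ a.wt i * a.share s d j -
      a.wt j * a.share s d i + s * (a.lam i - a.lam j) * a.share s d i * a.share s d j = 0 := by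
  simp only [a.share_eq hs.le hd.le]
  refine ⟨by rw [← Finset.mul_sum, a.sum_wt_zed, mul_one], fun i j =>
    ⟨mul_pos hd (mul_pos (a.pos i) (a.zed_pos _ i)), ?_⟩⟩
  have hi : (a.eroot (s * d) - s * d * a.lam i) * a.zed (s * d) i = 1 :=
    mul_inv_cancel₀ (a.eroot_gt _ i).ne'
  have hj : (a.eroot (s * d) - s * d * a.lam j) * a.zed (s * d) j = 1 :=
    mul_inv_cancel₀ (a.eroot_gt _ j).ne'
  linear_combination d * a.wt i * a.wt j * a.zed (s * d) i * hj -
    d * a.wt i * a.wt j * a.zed (s * d) j * hi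

/-- The positive solution of the loop relations is the share. -/
theorem Atoms.share_unique (a : Atoms K) {s : ℝ} (hs : 0 ≤ s) {x : Fin K → ℝ} (hx : ∀ i, 0 ≤ x i)
    (h : ∀ i j, a.wt i * x j - a.wt j * x i + s * (a.lam i - a.lam j) * x i * x j = 0) :
    x = fun i => a.share s (∑ j, x j) i := by
  rcases (Finset.sum_nonneg fun j _ => hx j : 0 ≤ ∑ j, x j).eq_or_lt with hd | hd
  · funext i
    rw [← hd, a.share_eq hs le_rfl, zero_mul,
      (Finset.sum_eq_zero_iff_of_nonneg fun j _ => hx j).1 hd.symm i (Finset.mem_univ i)]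
  set d := ∑ j, x j with hdd
  obtain ⟨j, -, hj⟩ : ∃ j ∈ Finset.univ, x j ≠ 0 := Finset.exists_ne_zero_of_sum_ne_zero hd.ne'
  have hpos : ∀ i, 0 < x i := fun i => (hx i).lt_of_ne fun e => by
    have := h i j
    rw [← e] at this
    simp [(a.pos i).ne', hj] at this
  set E := d * (a.wt j / x j + s * a.lam j) with hE
  have hC : ∀ i, E - s * d * a.lam i = d * a.wt i / x i := fun i => by
    have := h i j
    have := (hpos i).ne'
    rw [hE]
    field_simp
    linear_combination -(h i j)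
  have hroot : E = a.eroot (s * d) := by
    refine a.eroot_unique (fun i => sub_pos.1 ?_) ?_
    · rw [hC i]
      exact div_pos (mul_pos hd (a.pos i)) (hpos i)
    · calc ∑ i, a.wt i / (E - s * d * a.lam i) = ∑ i, x i / d := Finset.sum_congr rfl fun i _ => by
            rw [hC i]
            field_simp [(a.pos i).ne', hd.ne', (hpos i).ne']
        _ = 1 := by rw [← Finset.sum_div]; exact div_self hd.ne'
  funext i
  rw [a.share_eq hs hd.le, Atoms.zed, ← hroot, hC i]
  field_simp [(a.pos i).ne', hd.ne', (hpos i).ne']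

theorem Atoms.share_smooth (a : Atoms K) {s : ℝ} (hs : 0 ≤ s) :
    ∃ C, (∀ d ∈ Icc (0 : ℝ) 1, ∀ i,
        HasDerivWithinAt (fun e => a.share s e i) (a.rate s d i) (Icc 0 1) d ∧
          0 ≤ a.rate s d i ∧ a.rate s d i ≤ C) ∧
      ∀ d ∈ Icc (0 : ℝ) 1, ∀ d' ∈ Icc (0 : ℝ) 1, ∀ i,
        |a.rate s d i - a.rate s d' i| ≤ C * |d - d'| := by
  have h0 : 0 ≤ a.lipC * s := mul_nonneg a.lipC_nonneg hs
  refine ⟨1 + a.lipC * s, fun d hd i => ⟨?_, ?_, ?_⟩, fun d hd d' hd' i => ?_⟩
  · rw [a.rate_eq hs hd.1]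
    exact (a.hasDerivAt_shareFun s d i).hasDerivWithinAt.congr
      (fun e he => a.share_eq hs he.1 i) (a.share_eq hs hd.1 i)
  · rw [a.rate_eq hs hd.1]
    exact a.prob_nonneg _ i
  · rw [a.rate_eq hs hd.1]
    linarith [a.prob_le_one (s * d) i]
  · rw [a.rate_eq hs hd.1, a.rate_eq hs hd'.1]
    refine (a.prob_lip _ _ i).trans ?_
    rw [← mul_sub, abs_mul, abs_of_nonneg hs, ← mul_assoc]
    exact mul_le_mul_of_nonneg_right (by linarith) (abs_nonneg _)

theorem Atoms.sum_rate (a : Atoms K) {s d : ℝ} (hs : 0 ≤ s) (hd : d ∈ Icc (0 : ℝ) 1) :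
    ∑ i, a.rate s d i = 1 := by
  simp only [a.rate_eq hs hd.1, a.sum_prob]

/-- The slope as an integral of the average eigenvalue along the tails. -/
theorem Atoms.slope_eq (a : Atoms K) {s : ℝ} (hs : 0 ≤ s) {ν : Measure ℝ} (hν : OLaw ν) :
    a.slope s ν = (∫ q in (0 : ℝ)..1, a.avg (s * tail ν q)) / 2 := by
  have hc : ∀ i, Continuous fun q => a.prob (s * tail ν q) i :=
    fun i => (a.continuous_prob i).comp (continuous_const.mul hν.continuous_tail)
  have e : ∀ i, a.lfun s ν 1 i = ∫ q in (0 : ℝ)..1, a.prob (s * tail ν q) i := fun i => by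
    refine intervalIntegral.integral_congr fun q hq => ?_
    rw [uIcc_of_le zero_le_one] at hq
    exact a.rate_eq hs (hν.tail_mem hq).1 i
  simp only [Atoms.slope, e, ← intervalIntegral.integral_const_mul]
  rw [← intervalIntegral.integral_finsetSum (f := fun i q => a.lam i * a.prob (s * tail ν q) i)
    fun i _ => (continuous_const.mul (hc i)).intervalIntegrable _ _]
  rfl

/-- The energy is the integral of the slope. -/
theorem Atoms.energy_eq (a : Atoms K) {β : ℝ} (hβ : 0 ≤ β) {ν : Measure ℝ} (hν : OLaw ν) :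
    IntervalIntegrable (fun s => a.slope s ν) volume 0 β ∧
      ∫ s in (0 : ℝ)..β, a.slope s ν = energy a.law β ν := by
  have hc : Continuous fun p : ℝ × ℝ => a.avg (p.1 * tail ν p.2) :=
    a.continuous_avg.comp (continuous_fst.mul (hν.continuous_tail.comp continuous_snd))
  have hc1 : Continuous fun s => (∫ q in (0 : ℝ)..1, a.avg (s * tail ν q)) / 2 :=
    (intervalIntegral.continuous_parametric_intervalIntegral_of_continuous' hc 0 1).div_const 2
  have heq : EqOn (fun s => a.slope s ν) (fun s => (∫ q in (0 : ℝ)..1, a.avg (s * tail ν q)) / 2)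
      (uIcc 0 β) := fun s hs => a.slope_eq (by rw [uIcc_of_le hβ] at hs; exact hs.1) hν
  refine ⟨(hc1.intervalIntegrable 0 β).congr (fun s hs => (heq (uIoc_subset_uIcc hs)).symm), ?_⟩
  rw [intervalIntegral.integral_congr heq, intervalIntegral.integral_div, energy,
    intervalIntegral_intervalIntegral_swap]
  · congr 1
    refine intervalIntegral.integral_congr fun q hq => ?_
    rw [uIcc_of_le zero_le_one] at hq
    exact a.integral_avg (hν.tail_mem hq).1 hβ
  · exact (hc.continuousOn.integrableOn_compact (isCompact_uIcc.prod isCompact_uIcc)).mono_set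
      (prod_mono uIoc_subset_uIcc uIoc_subset_uIcc)

theorem Atoms.continuous_slope (a : Atoms K) {ν : Measure ℝ} (hν : OLaw ν) :
    ContinuousOn (fun s => a.slope s ν) (Ici 0) := by
  have hc : Continuous fun p : ℝ × ℝ => a.avg (p.1 * tail ν p.2) :=
    a.continuous_avg.comp (continuous_fst.mul (hν.continuous_tail.comp continuous_snd))
  exact ((intervalIntegral.continuous_parametric_intervalIntegral_of_continuous' hc 0 1).div_const
    2).continuousOn.congr fun s hs => a.slope_eq hs hν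

/-- Slope and energy are Lipschitz in the transport distance. -/
theorem Atoms.slope_lip (a : Atoms K) (β : ℝ) :
    ∃ C, ∀ s ∈ Icc 0 β, ∀ π : Measure (ℝ × ℝ), OLaw (π.map Prod.fst) → OLaw (π.map Prod.snd) →
      |a.slope s (π.map Prod.fst) - a.slope s (π.map Prod.snd)| ≤ C * ∫ z, |z.1 - z.2| ∂π ∧
        |energy a.law s (π.map Prod.fst) - energy a.law s (π.map Prod.snd)| ≤
          C * ∫ z, |z.1 - z.2| ∂π := by
  refine ⟨a.rad * a.lipC * |β| * (1 + |β|), fun s hs π h₁ h₂ => ?_⟩
  set W := ∫ z, |z.1 - z.2| ∂π with hW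
  have hW0 : 0 ≤ W := integral_nonneg fun z => abs_nonneg _
  have hβ : 0 ≤ β := hs.1.trans hs.2
  have hL : 0 ≤ a.rad * a.lipC := mul_nonneg a.rad_nonneg a.lipC_nonneg
  have hslope : ∀ t ∈ Icc 0 β,
      |a.slope t (π.map Prod.fst) - a.slope t (π.map Prod.snd)| ≤ a.rad * a.lipC * β * W := by
    intro t ht
    have hc : ∀ {ν : Measure ℝ}, OLaw ν → IntervalIntegrable (fun q => a.avg (t * tail ν q))
        volume 0 1 := fun hν =>
      (a.continuous_avg.comp (continuous_const.mul hν.continuous_tail)).intervalIntegrable _ _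
    rw [a.slope_eq ht.1 h₁, a.slope_eq ht.1 h₂, ← sub_div,
      ← intervalIntegral.integral_sub (hc h₁) (hc h₂), abs_div, abs_two, div_le_iff₀ two_pos]
    have h := intervalIntegral.norm_integral_le_of_norm_le_const (a := (0 : ℝ)) (b := 1)
      (f := fun q => a.avg (t * tail (π.map Prod.fst) q) - a.avg (t * tail (π.map Prod.snd) q))
      (C := a.rad * a.lipC * β * W) fun q _ => by
        refine (Real.norm_eq_abs _).trans_le ((a.avg_lip _ _).trans ?_)
        rw [← mul_sub, abs_mul, abs_of_nonneg ht.1, mul_assoc (a.rad * a.lipC) β]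
        exact mul_le_mul_of_nonneg_left
          (mul_le_mul ht.2 (tail_map_sub_le h₁ h₂ q) (abs_nonneg _) hβ) hL
    rw [Real.norm_eq_abs, sub_zero, abs_one, mul_one] at h
    linarith [mul_nonneg (mul_nonneg hL hβ) hW0]
  rw [abs_of_nonneg hβ]
  refine ⟨(hslope s hs).trans ?_, ?_⟩
  · nlinarith [mul_nonneg (mul_nonneg (mul_nonneg hL hβ) hβ) hW0]
  · obtain ⟨i₁, e₁⟩ := a.energy_eq hs.1 h₁
    obtain ⟨i₂, e₂⟩ := a.energy_eq hs.1 h₂
    rw [← e₁, ← e₂, ← intervalIntegral.integral_sub i₁ i₂]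
    have h := intervalIntegral.norm_integral_le_of_norm_le_const (a := (0 : ℝ)) (b := s)
      (f := fun t => a.slope t (π.map Prod.fst) - a.slope t (π.map Prod.snd))
      (C := a.rad * a.lipC * β * W) fun t ht => by
        rw [uIoc_of_le hs.1] at ht
        exact (Real.norm_eq_abs _).trans_le (hslope t ⟨ht.1.le, ht.2.trans hs.2⟩)
    rw [Real.norm_eq_abs, sub_zero, abs_of_nonneg hs.1] at h
    refine h.trans ?_
    nlinarith [mul_nonneg (mul_nonneg hL hβ) hW0, hs.2,
      mul_le_mul_of_nonneg_left hs.2 (mul_nonneg (mul_nonneg hL hβ) hW0)]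

/-- The slope increases with the tails. -/
theorem Atoms.slope_mono (a : Atoms K) {s : ℝ} (hs : 0 ≤ s) {ν ν' : Measure ℝ} (hν : OLaw ν)
    (hν' : OLaw ν') (h : ∀ q ∈ Icc (0 : ℝ) 1, tail ν q ≤ tail ν' q) :
    a.slope s ν ≤ a.slope s ν' := by
  rw [a.slope_eq hs hν, a.slope_eq hs hν']
  gcongr
  exact intervalIntegral.integral_mono_on zero_le_one
    ((a.continuous_avg.comp (continuous_const.mul hν.continuous_tail)).intervalIntegrable _ _)
    ((a.continuous_avg.comp (continuous_const.mul hν'.continuous_tail)).intervalIntegrable _ _)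
    fun q hq => a.avg_monotone (mul_le_mul_of_nonneg_left (h q hq) hs)

/-- Moving the spectrum by at most `ε` moves the energy by at most `|β| ε`. -/
theorem energy_snap {μ : Measure ℝ} [IsProbabilityMeasure μ] (hμ : IsCompact μ.support) {f : ℝ → ℝ}
    (hf : Monotone f) {ε : ℝ} (hε : ∀ x, |f x - x| ≤ ε) {β : ℝ} (hβ : 0 ≤ β) {ν : Measure ℝ}
    (hν : OLaw ν) :
    |energy (μ.map f) β ν - energy μ β ν| ≤ β * ε := by
  have := Measure.isProbabilityMeasure_map (μ := μ) hf.measurable.aemeasurable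
  have hc := isCompact_support_map hμ hf.measurable hε
  rw [energy, energy, ← sub_div, ← intervalIntegral.integral_sub
    (intervalIntegrable_rtr hc β hν 0 1) (intervalIntegrable_rtr hμ β hν 0 1), abs_div, abs_two]
  have h := intervalIntegral.norm_integral_le_of_norm_le_const (a := (0 : ℝ)) (b := 1)
    (f := fun q => β * rtr (μ.map f) (β * tail ν q) - β * rtr μ (β * tail ν q))
    (C := β * ε) fun q _ => by
      rw [Real.norm_eq_abs, ← mul_sub, abs_mul, abs_of_nonneg hβ]
      exact mul_le_mul_of_nonneg_left (rtr_map_sub_le hμ hf.measurable hε _) hβ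
  rw [Real.norm_eq_abs, sub_zero, abs_one, mul_one] at h
  linarith [abs_nonneg (∫ q in (0 : ℝ)..1,
    β * rtr (μ.map f) (β * tail ν q) - β * rtr μ (β * tail ν q))]

lemma xbar_zero (m : Fin (k + 1) → ℝ) : xbar m (0 : Fin (k + 1) → ℝ) = 0 := by
  have hd : Vale.Agent.P157.Low.incr (0 : Fin (k + 1) → ℝ) = 0 := by
    funext j
    simp [Vale.Agent.P157.Low.incr]
  have hh : ∀ (G : ℝ → ℝ) (y : ℝ), Vale.Agent.P157.Low.heat G 0 y = G y := fun G y => by
    simp [Vale.Agent.P157.Low.heat]
  have : ∀ n, Vale.Agent.P157.Low.potUp m (0 : Fin (k + 1) → ℝ) (fun y => Real.log (Real.cosh y)) n 0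
      = 0 := by
    intro n
    induction n with
    | zero => simp [Vale.Agent.P157.Low.potUp]
    | succ n ih =>
      simp only [Vale.Agent.P157.Low.potUp, Pi.zero_apply]
      split_ifs with h hm
      · rw [hh, ih]
      · beta_reduce
        rw [hh, Real.log_exp, ih, mul_zero, zero_div]
      · exact ih
  simp [xbar, hd, this]

lemma entS_nonneg (m p : Fin (k + 1) → ℝ) : 0 ≤ entS m p := by
  have hmem : (0 : ℝ) ∈ {v | ∃ r : Fin (k + 1) → ℝ,
      Monotone r ∧ (∀ l, 0 ≤ r l) ∧ v = xbar m r + pairing m p r} :=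
    ⟨0, fun _ _ _ => le_rfl, fun _ => le_rfl, by simp [xbar_zero, pairing]⟩
  by_cases hb : BddAbove {v | ∃ r : Fin (k + 1) → ℝ,
      Monotone r ∧ (∀ l, 0 ≤ r l) ∧ v = xbar m r + pairing m p r}
  · exact le_csSup hb hmem
  · exact (Real.sSup_of_not_bddAbove hb).ge

/-- The variational problem is bounded below. -/
theorem formula_bddBelow {μ : Measure ℝ} [IsProbabilityMeasure μ] (hμ : IsCompact μ.support)
    {β : ℝ} (hβ : 0 ≤ β) : BddBelow (formulaValues μ β) ∧ (formulaValues μ β).Nonempty := by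
  refine ⟨⟨-(β * rbound μ), ?_⟩, ⟨_, 0, fun _ => 0, fun _ => 0,
    ⟨rfl, Subsingleton.strictMono (α := Fin 1) _, fun _ => zero_lt_one⟩,
    ⟨fun _ _ _ => le_rfl, fun _ => le_rfl, fun _ => zero_lt_one⟩, rfl⟩⟩
  rintro _ ⟨k, m, p, -, -, rfl⟩
  have h := abs_le.1 (abs_energy_le hμ β (stepLaw m p))
  rw [abs_of_nonneg hβ] at h
  linarith [entS_nonneg m p, h.1]

end Vale.Agent.P166F
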