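import Vale.Agent.P157.Low.Defs
import Vale.Agent.P166.Defs
import Vale.Agent.P166N.Spectrum.Transfer

/-!
P166: objects of the variational formula for orthogonally invariant Ising models.
-/

namespace Vale.Agent.P166F

open MeasureTheory Vale.Agent.P157.Low Set

variable {k : ℕ}

/-- The weight of a level in the distribution of two replicas' overlap. -/
def lmass (m : Fin (k + 1) → ℝ) (l : Fin (k + 1)) : ℝ :=
  (if h : (l : ℕ) < k then m ⟨l + 1, by omega⟩ else 1) - m l

/-- Cumulative parameters of a step order parameter. -/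
structure Levels (m : Fin (k + 1) → ℝ) : Prop where
  zero : m 0 = 0
  strict : StrictMono m
  ltOne : ∀ l, m l < 1

/-- An overlap path on given levels. -/
structure Path (p : Fin (k + 1) → ℝ) : Prop where
  mono : Monotone p
  nonneg : ∀ l, 0 ≤ p l
  ltOne : ∀ l, p l < 1

/-- Parisi's recursion of `log cosh` at field variances `r`, minus half of the last one. -/
noncomputable def xbar (m r : Fin (k + 1) → ℝ) : ℝ :=
  potUp m (incr r) (fun y => Real.log (Real.cosh y)) (k + 1) 0 - r (Fin.last k) / 2

/-- Pairing of an overlap path with a field path. -/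
noncomputable def pairing (m p r : Fin (k + 1) → ℝ) : ℝ := (∑ l, lmass m l * p l * r l) / 2

/-- The entropy of an overlap path. -/
noncomputable def entS (m p : Fin (k + 1) → ℝ) : ℝ :=
  sSup {v | ∃ r : Fin (k + 1) → ℝ, Monotone r ∧ (∀ l, 0 ≤ r l) ∧ v = xbar m r + pairing m p r}

/-- The law of the overlap of a step order parameter. -/
noncomputable def stepLaw (m p : Fin (k + 1) → ℝ) : Measure ℝ :=
  ∑ l, ENNReal.ofReal (lmass m l) • Measure.dirac (p l)

/-- The integral from `q` to one of the distribution function of `ν`. -/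
noncomputable def tail (ν : Measure ℝ) (q : ℝ) : ℝ := ∫ r, 1 - max q r ∂ν

/-- Inverse of the Cauchy transform to the right of the support, continued by the upper edge. -/
noncomputable def zf (μ : Measure ℝ) (w : ℝ) : ℝ :=
  sInf {z | sSup μ.support < z ∧ ∫ x, (z - x)⁻¹ ∂μ ≤ w}

/-- The R-transform on the positive half-line, continued beyond the edge by `b - 1 / w`. -/
noncomputable def rtr (μ : Measure ℝ) (w : ℝ) : ℝ :=
  if w ≤ 0 then ∫ x, x ∂μ else zf μ w - w⁻¹

/-- The energy of an overlap law. -/
noncomputable def energy (μ : Measure ℝ) (β : ℝ) (ν : Measure ℝ) : ℝ :=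
  (∫ q in (0 : ℝ)..1, β * rtr μ (β * tail ν q)) / 2

/-- The values of the variational formula. -/
def formulaValues (μ : Measure ℝ) (β : ℝ) : Set ℝ :=
  {v | ∃ (k : ℕ) (m p : Fin (k + 1) → ℝ), Levels m ∧ Path p ∧
    v = energy μ β (stepLaw m p) + entS m p}

/-! ### Finitely many atoms -/

/-- A spectrum with finitely many atoms. -/
structure Atoms (K : ℕ) where
  lam : Fin K → ℝ
  wt : Fin K → ℝ
  pos : ∀ i, 0 < wt i
  total : ∑ i, wt i = 1
  inj : Function.Injective lam

/-- The law of an atomic spectrum. -/
noncomputable def Atoms.law {K : ℕ} (a : Atoms K) : Measure ℝ :=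
  ∑ i, ENNReal.ofReal (a.wt i) • Measure.dirac (a.lam i)

/-- The share of block `i` in a variance `d` at inverse temperature `s`, for `0 ≤ d`. -/
noncomputable def Atoms.share {K : ℕ} (a : Atoms K) (s d : ℝ) (i : Fin K) : ℝ :=
  if d ≤ 0 then 0 else if s ≤ 0 then a.wt i * d else a.wt i / (s * zf a.law (s * d) - s * a.lam i)

/-- The derivative of `share` in the variance. -/
noncomputable def Atoms.rate {K : ℕ} (a : Atoms K) (s d : ℝ) (i : Fin K) : ℝ :=
  if d ≤ 0 then a.wt i else deriv (fun e => a.share s e i) d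

/-- The block overlap belonging to an overlap `R` when the overlap law is `ν`. -/
noncomputable def Atoms.lfun {K : ℕ} (a : Atoms K) (s : ℝ) (ν : Measure ℝ) (R : ℝ) (i : Fin K) : ℝ :=
  ∫ q in (0 : ℝ)..R, a.rate s (tail ν q) i

/-- The derivative of the energy in the inverse temperature. -/
noncomputable def Atoms.slope {K : ℕ} (a : Atoms K) (s : ℝ) (ν : Measure ℝ) : ℝ :=
  (∑ i, a.lam i * a.lfun s ν 1 i) / 2

end Vale.Agent.P166F
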