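import Vale.Agent.P166F.Low.Final

/-!
P166: the lower bound.
-/

namespace Vale.Agent.P166F

open MeasureTheory
open Vale.Agent.P166N.Spectrum (OrthInvLaw)

variable {K : ℕ}

theorem lower_bound (a : Atoms K) {β : ℝ} (hβ : 0 < β) {blk : (N : ℕ) → Fin N → Fin K}
    (hb : Balanced a blk) {ν : (N : ℕ) → Measure (Fin N → Fin N → ℝ)}
    (hν : ∀ N, OrthInvLaw N (ν N)) {η : ℝ} (hη : 0 < η) :
    ∀ᶠ N in Filter.atTop, sInf (formulaValues a.law β) - η ≤ meanPress a β blk ν N :=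
  Low.not_low a hβ hb hν hη

end Vale.Agent.P166F
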