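import Vale.Agent.P166F.Main.UpperMu
import Vale.Agent.P166F.Lower

/-!
P166: the limiting pressure for every spectrum.
-/

namespace Vale.Agent.P166F

open MeasureTheory Filter
open scoped Topology
open Vale.Agent.P166 (pressure Admissible)
open Vale.Agent.P166N.Spectrum (OrthInvLaw)

theorem pressure_formula (μ : Measure ℝ) [IsProbabilityMeasure μ] (hμ : IsCompact μ.support)
    (β : ℝ) (hβ : 0 < β) (Λ : (N : ℕ) → Fin N → ℝ) (hΛ : Admissible μ Λ)
    (ν : (N : ℕ) → Measure (Fin N → Fin N → ℝ)) (hν : ∀ N, OrthInvLaw N (ν N)) :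
    ∃ L, IsGLB (formulaValues μ β) L ∧
      Tendsto (fun N => ∫ U, pressure N β (Λ N) U ∂ν N) atTop (𝓝 L) ∧
      ∀ δ > 0, Tendsto (fun N => ν N {U | δ < |pressure N β (Λ N) U - L|}) atTop (𝓝 0) := by
  obtain ⟨hbdd, hne⟩ := formula_bddBelow hμ hβ.le
  set L := sInf (formulaValues μ β)
  have hmean : Tendsto (fun N => ∫ U, pressure N β (Λ N) U ∂ν N) atTop (𝓝 L) := by
    refine Metric.tendsto_nhds.2 fun d hd => ?_
    set ε := d / (8 * β) with hεdef
    have hε : 0 < ε := by positivity
    have hβε : β * ε = d / 8 := by rw [hεdef]; field_simp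
    obtain ⟨K, a, f, blk, Λ', hlaw, hf, hfx, hbal, hΛ', hnear⟩ := exists_atomic hμ hΛ hε
    obtain ⟨v, ⟨k, m, p, hm, hp, rfl⟩, hv⟩ :=
      exists_lt_of_csInf_lt hne (show L < L + d / 8 by linarith)
    have hup := upper_bound a hβ hbal hν hm hp (η := d / 8) (by linarith)
    have hlow := lower_bound a hβ hbal hν (η := d / 8) (by linarith)
    have huni := (Vale.Agent.P166.Universality.result μ hμ β hβ Λ Λ' hΛ hΛ' ν
      fun N => (hν N).rowInvariant).1
    have hE : energy a.law β (stepLaw m p) ≤ energy μ β (stepLaw m p) + β * ε := by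
      rw [hlaw]
      linarith [(abs_le.1 (energy_snap hμ hf hfx hβ.le (olaw_stepLaw hm hp))).2]
    have hL : L - β * ε ≤ sInf (formulaValues a.law β) := by
      refine le_csInf ⟨_, k, m, p, hm, hp, rfl⟩ ?_
      rintro _ ⟨k', m', p', hm', hp', rfl⟩
      have h1 := csInf_le hbdd (show energy μ β (stepLaw m' p') + entS m' p' ∈ formulaValues μ β from
        ⟨k', m', p', hm', hp', rfl⟩)
      have h2 := (abs_le.1 (energy_snap hμ hf hfx hβ.le (olaw_stepLaw hm' hp'))).1
      rw [hlaw]
      linarith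
    filter_upwards [hup, hlow, Metric.tendsto_nhds.1 huni (d / 8) (by linarith), eventually_gt_atTop 0]
      with N h1 h2 h3 hN
    have h4 := abs_le.1 (abs_meanPress_sub_le (hν N) hβ.le hN (hnear N))
    have h5 := abs_lt.1 ((Real.dist_eq _ _).symm.trans_lt h3)
    rw [Real.dist_eq, abs_lt]
    simp only [meanPress] at h1 h2
    constructor <;> linarith
  refine ⟨L, isGLB_csInf hne hbdd, hmean, fun δ hδ => ?_⟩
  have hB : Tendsto (fun N => ENNReal.ofReal ((δ / 2)⁻¹ *
      ∫ U, |pressure N β (Λ N) U - ∫ U', pressure N β (Λ N) U' ∂ν N| ∂ν N)) atTop (𝓝 0) := by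
    have := (ENNReal.continuous_ofReal.tendsto _).comp
      ((orth_conc (β := β) hΛ hν).const_mul ((δ / 2)⁻¹))
    simpa [Function.comp_def] using this
  refine tendsto_of_tendsto_of_tendsto_of_le_of_le' tendsto_const_nhds hB
    (Eventually.of_forall fun _ => zero_le) ?_
  filter_upwards [Metric.tendsto_nhds.1 hmean (δ / 2) (half_pos hδ)] with N hN
  have := (hν N).prob
  set X := fun U => |pressure N β (Λ N) U - ∫ U', pressure N β (Λ N) U' ∂ν N| with hX
  have hi : Integrable X (ν N) :=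
    ((P166.integrable_pressure (hν N).rowInvariant hβ.le (Λ N)).sub (integrable_const _)).abs
  have hsub : {U | δ < |pressure N β (Λ N) U - L|} ⊆ {U | δ / 2 ≤ X U} := fun U hU => by
    have h := abs_sub_le (pressure N β (Λ N) U) (∫ U', pressure N β (Λ N) U' ∂ν N) L
    rw [Real.dist_eq] at hN
    simp only [Set.mem_setOf_eq, hX] at hU ⊢
    linarith
  refine (measure_mono hsub).trans ?_
  have hM := mul_meas_ge_le_integral_of_nonneg (Eventually.of_forall fun U => abs_nonneg _) hi (δ / 2)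
  rw [← ofReal_measureReal]
  refine ENNReal.ofReal_le_ofReal ?_
  rw [le_inv_mul_iff₀ (half_pos hδ)]
  exact hM

end Vale.Agent.P166F
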