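import Vale.Agent.P166F.Tree.Limit

/-!
P166: random trees with one Gaussian field per coordinate, each with its own variances along the levels.
-/

namespace Vale.Agent.P166F

open MeasureTheory ProbabilityTheory Filter
open Vale.Agent.P157 Vale.Agent.P166N
open scoped Topology

variable {ι : Type} [Fintype ι] {n : ℕ}
variable {G : EuclideanSpace ℝ ι → ℝ} {L : ℝ} {k : ℕ} {m : ℕ → ℝ} {R : ℕ → ι → ℝ}

theorem tendsto_treeLog (h : TreeParam k m R) (hG : RSB.Lip L G) :
    Tendsto (fun n => ∫ w, treeLog (n := n) k m R G w ∂markLaw n k ι) atTop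
      (𝓝 (nestRoot k m R G)) :=
  tendsto_treeLog_aux h.pos h.strict hG

/-- Given the root, the log-average deviates by a bounded amount, uniformly in the energy. -/
theorem treeLog_dev (k : ℕ) (m : ℕ → ℝ) (hpos : ∀ j, 1 ≤ j → j ≤ k → 0 < m j ∧ m j < 1) :
    ∃ C, ∀ (ι : Type) [Fintype ι] (R : ℕ → ι → ℝ) (G : EuclideanSpace ℝ ι → ℝ) (L : ℝ),
      TreeParam k m R → RSB.Lip L G → ∀ᶠ n in atTop,
        ∫ w, |treeLog (n := n) k m R G w - nestVal k m R G
          (WithLp.toLp 2 fun i => Real.sqrt (R 0 i) * w.2 none i)| ∂markLaw n k ι ≤ C :=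
  ⟨devConst k m + 1, fun _ _ _ _ _ h hG => treeLog_dev_aux hpos h.strict hG⟩

lemma leafPt_ext (ξ : ℕ → ℝ) (l : Leaf n k) (z : Option (Node n k) → EuclideanSpace ℝ ι)
    (y : Option (Node n k) → ℝ) :
    res1 (leafPt k (extR R ξ) l fun ν => ext1 (z ν) (y ν)) = leafPt k R l z ∧
      leafPt k (extR R ξ) l (fun ν => ext1 (z ν) (y ν)) none = ∑ ν, feat0 k ξ l ν * y ν :=
  ⟨rfl, rfl⟩

/-- The logarithm of the extended average splits off the mixture of the added coordinate. -/
lemma treeLog_ext (hn : 1 ≤ n) (ξ : ℕ → ℝ) (s : ℝ) {v : Node n k → ℝ} (hv : ∀ u, 0 < v u)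
    (z : Option (Node n k) → EuclideanSpace ℝ ι) (y : Option (Node n k) → ℝ) :
    treeLog (n := n) k m (extR R ξ) (extG G s) (v, fun ν => ext1 (z ν) (y ν)) =
      treeLog (n := n) k m R G (v, z) + Real.log (∑ l,
        (wgt n k m v l * Real.exp (G (leafPt k R l z)) /
          ∑ l', wgt n k m v l' * Real.exp (G (leafPt k R l' z))) *
        Real.exp (s * ∑ ν, feat0 k ξ l ν * y ν)) := by
  have := nonempty_leaf hn k
  have hw := wgt_pos (m := m) hn hv
  have hS : 0 < ∑ l, wgt n k m v l * Real.exp (G (leafPt k R l z)) :=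
    Finset.sum_pos (fun l _ => mul_pos (hw l) (Real.exp_pos _)) Finset.univ_nonempty
  have hW : 0 < ∑ l, wgt n k m v l := Finset.sum_pos (fun l _ => hw l) Finset.univ_nonempty
  have hN : 0 < ∑ l, wgt n k m v l * Real.exp (G (leafPt k R l z)) *
      Real.exp (s * ∑ ν, feat0 k ξ l ν * y ν) :=
    Finset.sum_pos (fun l _ => by have := hw l; positivity) Finset.univ_nonempty
  simp only [div_mul_eq_mul_div, ← Finset.sum_div]
  simp only [treeLog, extG, (leafPt_ext ξ _ z y).1, (leafPt_ext ξ _ z y).2, Real.exp_add, ← mul_assoc]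
  rw [← Real.log_mul (div_pos hS hW).ne' (div_pos hN hS).ne']
  congr 1
  field_simp

/-- In any tilt the meeting level keeps its law. -/
theorem tendsto_meetGe (h : TreeParam k m R) (hG : RSB.Lip L G) {j : ℕ} (hj : 1 ≤ j) (hjk : j ≤ k) :
    Tendsto (fun n => ∫ w, meetGe (n := n) k m R G j w ∂markLaw n k ι) atTop (𝓝 (1 - m j)) := by
  have hpos : ∀ i, 1 ≤ i → i ≤ k → 0 < m i := fun i h1 h2 => (h.pos i h1 h2).1
  have hmono : ∀ i < k, indAt j i ≤ indAt j (i + 1) := fun i _ => by
    unfold indAt; split_ifs <;> first | linarith | omega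
  have h00 : indAt j 0 = 0 := if_neg (by omega)
  set M := fun n => ∫ w, meetGe (n := n) k m R G j w ∂markLaw n k ι with hM
  -- the second-order identity at a fixed size
  have key : ∀ n, 1 ≤ n → ∀ s : ℝ, 0 < s → s ≤ 1 / 4 →
      |(∫ w, treeLog (n := n) k m (extR R (indAt j)) (extG G s) w ∂markLaw n k (Option ι)) -
        (∫ w, treeLog (n := n) k m R G w ∂markLaw n k ι) - s ^ 2 / 2 * (1 - M n)| ≤ 700 * s ^ 3 := by
    intro n hn s hs hs1
    have := nonempty_leaf hn k
    set ξ := indAt j
    set ρ : (Node n k → ℝ) × (Option (Node n k) → EuclideanSpace ℝ ι) → Leaf n k → ℝ := fun w l =>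
      wgt n k m w.1 l * Real.exp (G (leafPt k R l w.2)) /
        ∑ l', wgt n k m w.1 l' * Real.exp (G (leafPt k R l' w.2))
    have hvpos : ∀ᵐ w ∂markLaw n k ι, ∀ u, 0 < w.1 u := by
      unfold markLaw
      exact Measure.quasiMeasurePreserving_fst.ae (ae_pos_pi (n := n) (k := k))
    have hc : ∀ l : Leaf n k, ∑ ν, feat0 k ξ l ν ^ 2 = 1 := fun l => by
      simp only [sq]
      rw [feat0_inner h00.ge hmono, meet_self]
      exact if_pos hjk
    have hB : ∀ l l' : Leaf n k, ∑ ν, feat0 k ξ l ν * feat0 k ξ l' ν =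
        if j ≤ meet k l l' then (1 : ℝ) else 0 := fun l l' => feat0_inner h00.ge hmono l l'
    set Φ := fun p : ((Node n k → ℝ) × (Option (Node n k) → EuclideanSpace ℝ ι)) ×
      (Option (Node n k) → ℝ) => (p.1.1, fun ν => ext1 (p.1.2 ν) (p.2 ν)) with hΦ
    have hmp : MeasurePreserving Φ ((markLaw n k ι).prod (gLaw (Option (Node n k))))
        (markLaw n k (Option ι)) := measurePreserving_extMarks n k
    have hm' : Measurable (treeLog (n := n) k m (extR R ξ) (extG G s)) :=
      measurable_treeLog (lip_extG hG s).meas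
    have hiE := (integral_treeLog h.pos h.strict (R := extR R ξ) (lip_extG hG s) hn).1
    have hi0 := (integral_treeLog h.pos h.strict (R := R) hG hn).1
    have hcomp : Integrable (fun p => treeLog (n := n) k m (extR R ξ) (extG G s) (Φ p))
        ((markLaw n k ι).prod (gLaw (Option (Node n k)))) :=
      (hmp.integrable_comp hm'.aestronglyMeasurable).2 hiE
    have hsplit : ∀ᵐ w ∂markLaw n k ι,
        |(∫ y, treeLog (n := n) k m (extR R ξ) (extG G s) (Φ (w, y)) ∂gLaw (Option (Node n k))) -
          treeLog (n := n) k m R G w - s ^ 2 / 2 * (1 - meetGe (n := n) k m R G j w)| ≤ 700 * s ^ 3 := by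
      filter_upwards [hvpos] with w hw
      have hwp := wgt_pos (m := m) hn hw
      have hS : 0 < ∑ l, wgt n k m w.1 l * Real.exp (G (leafPt k R l w.2)) :=
        Finset.sum_pos (fun l _ => mul_pos (hwp l) (Real.exp_pos _)) Finset.univ_nonempty
      obtain ⟨hi, hb⟩ := abs_logmix_le (ρ := ρ w) (fun l => div_pos (mul_pos (hwp l) (Real.exp_pos _)) hS)
        (by simp only [ρ, ← Finset.sum_div]; exact div_self hS.ne')
        (fun l ν => feat0 k ξ l ν) (fun l l' => j ≤ meet k l l') hc hB hs hs1
      have e : meetGe (n := n) k m R G j w =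
          ∑ l, ∑ l', if j ≤ meet k l l' then ρ w l * ρ w l' else 0 := by
        simp only [meetGe, ρ, Finset.sum_div]
        refine Finset.sum_congr rfl fun l _ => Finset.sum_congr rfl fun l' _ => ?_
        split_ifs
        · rw [div_mul_div_comm, ← sq]
        · simp
      simp only [hΦ, treeLog_ext hn ξ s hw]
      rw [integral_add (integrable_const _) hi, integral_const, probReal_univ, one_smul, e,
        add_sub_cancel_left]
      exact hb
    have hmeet : Integrable (meetGe (n := n) k m R G j) (markLaw n k ι) := by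
      refine Integrable.of_bound ?_ 1 (hvpos.mono fun w hw => ?_)
      · refine (Measurable.div (Finset.measurable_fun_sum _ fun l _ => Finset.measurable_fun_sum _
          fun l' _ => ?_) ((Finset.measurable_fun_sum _ fun l _ =>
            measurable_leafExp hG.meas l).pow_const 2)).aestronglyMeasurable
        by_cases hh : j ≤ meet k l l'
        · simp only [if_pos hh]
          exact (measurable_leafExp hG.meas l).mul (measurable_leafExp hG.meas l')
        · simp only [if_neg hh]
          exact measurable_const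
      · have hwp := wgt_pos (m := m) hn hw
        have h0 : ∀ l, 0 < wgt n k m w.1 l * Real.exp (G (leafPt k R l w.2)) :=
          fun l => mul_pos (hwp l) (Real.exp_pos _)
        have hS := Finset.sum_pos (fun l _ => h0 l) Finset.univ_nonempty
        rw [Real.norm_eq_abs, meetGe, abs_of_nonneg (div_nonneg (Finset.sum_nonneg fun l _ =>
          Finset.sum_nonneg fun l' _ => by
            split_ifs
            exacts [(mul_pos (h0 l) (h0 l')).le, le_rfl]) (sq_nonneg _)), div_le_one (pow_pos hS 2), sq,
          Finset.sum_mul_sum]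
        exact Finset.sum_le_sum fun l _ => Finset.sum_le_sum fun l' _ => by
          split_ifs
          exacts [le_rfl, (mul_pos (h0 l) (h0 l')).le]
    have hI := hcomp.integral_prod_left
    have hd := (hI.sub' hi0).sub' (((integrable_const (1 : ℝ)).sub' hmeet).const_mul (s ^ 2 / 2))
    calc _ = |∫ w, ((∫ y, treeLog (n := n) k m (extR R ξ) (extG G s) (Φ (w, y))
          ∂gLaw (Option (Node n k))) - treeLog (n := n) k m R G w -
          s ^ 2 / 2 * (1 - meetGe (n := n) k m R G j w)) ∂markLaw n k ι| := by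
          rw [integral_sub (hI.sub' hi0) (((integrable_const (1 : ℝ)).sub' hmeet).const_mul _),
            integral_sub hI hi0, integral_const_mul, integral_sub (integrable_const _) hmeet,
            ← integral_prod _ hcomp, ← integral_map hmp.measurable.aemeasurable
              hm'.aestronglyMeasurable, hmp.map_eq]
          simp [hM, ξ]
      _ ≤ ∫ _w, 700 * s ^ 3 ∂markLaw n k ι :=
          abs_integral_le_integral_abs.trans (integral_mono_ae hd.abs (integrable_const _) hsplit)
      _ = 700 * s ^ 3 := by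
          simp
  refine Metric.tendsto_atTop.2 fun ε hε => ?_
  set s := min (1 / 4) (ε / 5600) with hs
  have hs0 : 0 < s := lt_min (by norm_num) (by positivity)
  have hT : TreeParam k m (extR R (indAt j)) := by
    refine ⟨h.pos, h.strict, fun i => ?_, fun i hi o => ?_⟩
    · cases i with
      | none => exact h00.ge
      | some i => exact h.root i
    · cases o with
      | none => exact hmono i hi
      | some o => exact h.mono i hi o
  have hlim := (tendsto_treeLog hT (lip_extG hG s)).sub (tendsto_treeLog h hG)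
  rw [nestRoot_extG hG s R hpos hmono h00, jumps_indAt hj hjk, add_sub_cancel_left] at hlim
  obtain ⟨N, hN⟩ := Metric.tendsto_atTop.1 hlim (s ^ 3) (pow_pos hs0 3)
  refine ⟨max N 1, fun n hn => ?_⟩
  have h1 := abs_le.1 (key n (le_of_max_le_right hn) s hs0 (min_le_left _ _))
  have h2 := abs_lt.1 (hN n (le_of_max_le_left hn))
  have h3 : s * 5600 ≤ ε := by rw [← le_div_iff₀ (by norm_num)]; exact min_le_right _ _
  have h4 : 0 < s ^ 2 := by positivity
  rw [Real.dist_eq, abs_lt]
  change -ε < M n - (1 - m j) ∧ M n - (1 - m j) < ε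
  constructor <;> nlinarith

end Vale.Agent.P166F
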