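import Vale.Agent.P166F.Loop.Kernel

/-!
P166: solution of the loop equation in a synchronised limit array.
-/

namespace Vale.Agent.P166F

open MeasureTheory Set Filter

variable {J : Type} [Fintype J] [DecidableEq J] {v : J → ℝ} {K : ℕ}

/-- A continuous function whose tail averages are constant on the support is constant there. -/
theorem Loop.eq_bottom_of_tail {ν : Measure ℝ} [IsProbabilityMeasure ν]
    (hν : ∀ᵐ u ∂ν, u ∈ Icc (0 : ℝ) 1) {D : ℝ → ℝ} (hD : Continuous D) {q₀ : ℝ}
    (hq : IsLeast ν.support q₀) {C : ℝ}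
    (hC : ∀ w ∈ ν.support, ∫ u, D (max w u) ∂ν = C) : ∀ w ∈ ν.support, D w ≤ D q₀ := by
  intro w hw
  have hS01 : ν.support ⊆ Icc 0 1 := Loop.support_subset_of_ae isClosed_Icc hν
  have hScpt : IsCompact ν.support := isCompact_Icc.of_isClosed_subset Measure.isClosed_support hS01
  obtain ⟨m, hm, hmax⟩ := hScpt.exists_isMaxOn ⟨q₀, hq.1⟩ hD.continuousOn
  have hmax' : ∀ u ∈ ν.support, D u ≤ D m := fun u hu => hmax hu
  set T := ν.support ∩ {u | D u = D m} with hT
  have hTcpt : IsCompact T := hScpt.inter_right (isClosed_eq hD continuous_const)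
  obtain ⟨hwS, hwm⟩ : sInf T ∈ T := hTcpt.sInf_mem ⟨m, hm, rfl⟩
  change D (sInf T) = D m at hwm
  rcases (hq.2 hwS).eq_or_lt with h | h
  · rw [h, hwm]; exact hmax' w hw
  exfalso
  have hae : ∀ᵐ u ∂ν, u ∈ ν.support := Measure.support_mem_ae
  have hi1 : Integrable (fun u => D (max (sInf T) u)) ν :=
    Loop.integrable_cont hν (hD.comp (f := fun u => max (sInf T) u) (by fun_prop))
  have hi2 : Integrable (fun u => D (max q₀ u)) ν :=
    Loop.integrable_cont hν (hD.comp (f := fun u => max q₀ u) (by fun_prop))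
  have h0 : ∫ u, (D (max (sInf T) u) - D (max q₀ u)) ∂ν = 0 := by
    rw [integral_sub (f := fun u => D (max (sInf T) u)) hi1 hi2, hC _ hwS, hC _ hq.1, sub_self]
  have hnn : 0 ≤ᵐ[ν] fun u => D (max (sInf T) u) - D (max q₀ u) := by
    filter_upwards [hae] with u hu
    simp only [Pi.zero_apply, max_eq_right (hq.2 hu)]
    rcases le_total u (sInf T) with h' | h'
    · rw [max_eq_left h', hwm]; exact sub_nonneg.2 (hmax' u hu)
    · rw [max_eq_right h', sub_self]
  have hz := (integral_eq_zero_iff_of_nonneg_ae hnn (hi1.sub' hi2)).1 h0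
  have hge : ∀ᵐ u ∂ν, sInf T ≤ u := by
    filter_upwards [hz, hae] with u hu hus
    by_contra hc
    simp only [Pi.zero_apply, max_eq_right (hq.2 hus), max_eq_left (not_le.1 hc).le, hwm] at hu
    have : u ∈ T := ⟨hus, (by linarith : D u = D m)⟩
    exact hc (csInf_le hTcpt.bddBelow this)
  exact absurd (Loop.support_subset_of_ae isClosed_Ici hge hq.1) (not_le.2 h)

/-- The loop equation determines every block overlap from the total one. -/
theorem LoopEq.solve {a : Atoms K} {s : ℝ} (hs : 0 ≤ s) {ι : Fin K → J} {A : JArr J v}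
    (h : LoopEq a s ι A) :
    (∀ k, v (ι k) = a.lfun s (A.total ι) 1 k) ∧
      ∀ᵐ R ∂A.law 2, ∀ k, R 0 1 (ι k) = a.lfun s (A.total ι) (∑ i, R 0 1 (ι i)) k := by
  obtain ⟨F, hF, hx⟩ := A.exists_sync ι
  have := A.isProb_total ι
  have := A.prob 2
  set ν := A.total ι with hνdef
  have hν := A.ae_total ι h.total
  set S := ν.support with hS
  have hae : ∀ᵐ u ∂ν, u ∈ S := Measure.support_mem_ae
  have hS01 : S ⊆ Icc 0 1 := Loop.support_subset_of_ae isClosed_Icc hν
  have hWS : ∀ᵐ R ∂A.law 2, blockSum ι (R 0 1) ∈ S :=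
    ae_of_ae_map (Continuous.measurable (by fun_prop)).aemeasurable
      (by rw [← A.total_eq]; exact hae)
  have hmap : ∀ {g : ℝ → ℝ}, Continuous g →
      ∫ u, g u ∂ν = ∫ R, g (blockSum ι (R 0 1)) ∂A.law 2 := fun {g} hg => by
    rw [hνdef, A.total_eq, integral_map (Continuous.measurable (by fun_prop)).aemeasurable
      hg.aestronglyMeasurable]
  have hFS : ∀ u ∈ S, (∀ i, F i u ≤ v (ι i)) ∧ ∑ i, F i u = u := by
    intro u hu
    refine Loop.support_subset_of_ae (C := {u | (∀ i, F i u ≤ v (ι i)) ∧ ∑ i, F i u = u}) ?_ ?_ hu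
    · simp only [Set.ofPred_and, Set.ofPred_forall]
      exact (isClosed_iInter fun i => isClosed_le (hF i) continuous_const).inter
        (isClosed_eq (by fun_prop) continuous_id)
    · rw [hνdef, A.total_eq]
      refine (ae_map_iff (Continuous.measurable (by fun_prop)).aemeasurable ?_).2 ?_
      · simp only [Set.ofPred_and, Set.ofPred_forall]
        exact ((isClosed_iInter fun i => isClosed_le (hF i) continuous_const).inter
          (isClosed_eq (by fun_prop) continuous_id)).measurableSet
      · filter_upwards [hx, A.nonneg] with R hR hR'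
        refine ⟨fun i => hR i ▸ (hR' (ι i)).2, ?_⟩
        rw [← Finset.sum_congr rfl fun i _ => hR i]
        rfl
  have hmaxS : ∀ w ∈ S, ∀ᵐ u ∂ν, max w u ∈ S := fun w hw => hae.mono fun u hu => by
    rcases max_choice w u with e | e <;> rw [e] <;> assumption
  have hΛ0 : ∀ k l, ∀ w ∈ S, Loop.loopFun a s (fun i => v (ι i)) F ν k l w = 0 :=
    fun k l w hw => Loop.eqOn_support (g' := fun _ => 0) (Loop.continuous_loopFun hF hν k l)
      continuous_const (h.loopFun_zero hF hx k l) hw
  set d : ℝ → Fin K → ℝ := fun w i => v (ι i) - ∫ u, F i (max w u) ∂ν with hd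
  have hone : ∀ k l, a.wt k * v (ι l) - a.wt l * v (ι k) + s * (a.lam k - a.lam l) *
      (v (ι k) * v (ι l) - ∫ u, F k u * F l u ∂ν) = 0 := fun k l => by
    rw [hmap (g := fun u => F k u * F l u) ((hF k).mul (hF l)), ← integral_congr_ae (hx.mono fun R hR => by
      simp only [hR k, hR l] : (fun R : OArr J 2 => R 0 1 (ι k) * R 0 1 (ι l)) =ᵐ[A.law 2] _)]
    exact h.one k l
  have hdiff : ∀ w ∈ S, ∀ i, d w i = a.lext s ν 1 i - ∫ u, a.lext s ν (max w u) i ∂ν := by
    intro w hw i
    have hrel : ∀ k l, a.rel s k l (d w) = 0 := fun k l => by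
      rw [Loop.tail_loopFun hF hν, hone k l,
        integral_eq_zero_of_ae ((hmaxS w hw).mono fun u hu => hΛ0 k l _ hu), sub_zero]
    have hiM : ∀ j, Integrable (fun u => F j (max w u)) ν := fun j =>
      Loop.integrable_cont hν ((hF j).comp (f := fun u => max w u) (by fun_prop))
    have hpos : ∀ j, 0 ≤ d w j := fun j => by
      have := integral_mono_ae (hiM j) (integrable_const (v (ι j)))
        ((hmaxS w hw).mono fun u hu => (hFS _ hu).1 j)
      rw [Loop.integral_const_one] at this
      simp only [hd]; linarith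
    have hsum : ∑ j, d w j = tail ν w := by
      simp only [hd]
      rw [Finset.sum_sub_distrib, h.total, ← integral_finsetSum _ fun j _ => hiM j,
        Loop.tail_eq hν]
      congr 1
      exact integral_congr_ae ((hmaxS w hw).mono fun u hu => (hFS _ hu).2)
    rw [← a.share_tail hs hν (hS01 hw) i, ← hsum]
    exact congrFun (a.share_unique hs hpos hrel) i
  obtain ⟨q₀, hq₀⟩ : ∃ q₀, IsLeast S q₀ := ⟨sInf S,
    Measure.isClosed_support.csInf_mem (Measure.nonempty_support (IsProbabilityMeasure.ne_zero ν))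
      ⟨0, fun u hu => (hS01 hu).1⟩, fun u hu => csInf_le ⟨0, fun u hu => (hS01 hu).1⟩ hu⟩
  have hge : ∀ᵐ u ∂ν, q₀ ≤ u := hae.mono fun u hu => hq₀.2 hu
  set D : Fin K → ℝ → ℝ := fun i w => F i w - a.lext s ν w i with hD
  have hDc : ∀ i, Continuous (D i) := fun i => (hF i).sub (a.continuous_lext hs hν i)
  have hDavg : ∀ i, ∀ w ∈ S, ∫ u, D i (max w u) ∂ν = v (ι i) - a.lext s ν 1 i := by
    intro i w hw
    simp only [hD]
    have i1 : Integrable (fun u => F i (max w u)) ν :=
      Loop.integrable_cont hν ((hF i).comp (f := fun u => max w u) (by fun_prop))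
    have i2 : Integrable (fun u => a.lext s ν (max w u) i) ν :=
      Loop.integrable_cont hν
        ((a.continuous_lext hs hν i).comp (f := fun u => max w u) (by fun_prop))
    rw [integral_sub i1 i2]
    have := hdiff w hw i
    simp only [hd] at this
    linarith
  have hconst : ∀ i, ∀ w ∈ S, D i w = D i q₀ := fun i w hw => by
    refine le_antisymm (Loop.eq_bottom_of_tail hν (hDc i) hq₀ (hDavg i) w hw) ?_
    have := Loop.eq_bottom_of_tail hν (D := fun w => - D i w) (hDc i).neg hq₀
      (C := -(v (ι i) - a.lext s ν 1 i)) (fun w hw => by rw [integral_neg, hDavg i w hw]) w hw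
    linarith
  have ht0 : tail ν q₀ ∈ Icc (0 : ℝ) 1 := Loop.tail_mem hν (hS01 hq₀.1)
  have hd0 : d q₀ = a.share s (tail ν q₀) := funext fun i => by
    rw [hdiff _ hq₀.1, a.share_tail hs hν (hS01 hq₀.1)]
  have hI : ∀ i, ∫ u, F i u ∂ν = v (ι i) - a.share s (tail ν q₀) i := fun i => by
    rw [← hd0, hd]
    simp only [sub_sub_cancel]
    exact integral_congr_ae (hge.mono fun u hu => by simp [max_eq_right hu])
  have hxy : (fun i => F i q₀) = fun i => q₀ * a.rate s (tail ν q₀) i := by
    refine a.linRel_unique hs (tail ν q₀) (fun k l => ?_) (fun k l => ?_) ?_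
    · have hG : ∫ u, Loop.kern (F k) (F l) q₀ u ∂ν =
          (∫ u, F k u ∂ν) * F l q₀ + F k q₀ * ∫ u, F l u ∂ν := by
        rw [← integral_mul_const, ← integral_const_mul, ← integral_add
          ((Loop.integrable_cont hν (hF k)).mul_const _)
          ((Loop.integrable_cont hν (hF l)).const_mul _)]
        refine integral_congr_ae (hge.mono fun u hu => ?_)
        simp only [Loop.kern, max_eq_right hu, min_eq_left hu]
        ring
      have := hΛ0 k l q₀ hq₀.1
      rw [Loop.loopFun, hG, hI, hI] at this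
      unfold Atoms.linRel
      linear_combination this
    · have := a.linRel_rate hs ht0 k l
      unfold Atoms.linRel at this ⊢
      linear_combination q₀ * this
    · rw [(hFS _ hq₀.1).2, ← Finset.mul_sum, a.sum_rate hs ht0, mul_one]
  have hD0 : ∀ i, D i q₀ = 0 := fun i => by
    simp only [hD]
    rw [a.lext_linear (hS01 hq₀.1) (hge.and hν |>.mono fun u hu => ⟨hu.1, hu.2.2⟩),
      congrFun hxy i, sub_self]
  refine ⟨fun k => ?_, ?_⟩
  · have h1 := hDavg k q₀ hq₀.1
    rw [integral_eq_zero_of_ae (hmaxS q₀ hq₀.1 |>.mono fun u hu => by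
      simp [hconst k _ hu, hD0 k])] at h1
    rw [← a.lext_eq ⟨zero_le_one, le_rfl⟩]
    linarith
  · filter_upwards [hx, hWS] with R hR hW k
    have h1 := hconst k _ hW
    rw [hD0] at h1
    simp only [hD] at h1
    rw [hR k]
    change F k (blockSum ι (R 0 1)) = a.lfun s ν (blockSum ι (R 0 1)) k
    rw [← a.lext_eq (hS01 hW) k]
    exact sub_eq_zero.1 h1

end Vale.Agent.P166F
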