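import Vale.Agent.P166F.GG.Fluct

/-!
P166: Ghirlanda–Guerra identities at any point where the mean log-sum is below a quadratic.
-/

namespace Vale.Agent.P166F

open MeasureTheory ProbabilityTheory
open scoped RealInnerProductSpace

variable {J : Type} [Fintype J] [DecidableEq J] {P : ℕ}

/-- The mean log-sum lies below a quadratic around `y₀`, and deviates little from it. -/
structure Pinned (S : Sys J) (s : ℝ) (y₀ : CIdx J P → ℝ) (θ σ δ : ℝ) : Prop where
  pos : 0 < s ∧ 0 < δ ∧ 0 ≤ θ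
  low : ∀ e, s ≤ y₀ (Sum.inl e)
  quad : ∃ g : CIdx J P → ℝ, ∀ y, (∀ i, |y i - y₀ i| ≤ δ) →
    S.press P s y ≤ S.press P s y₀ + ∑ i, g i * (y i - y₀ i) + θ * ∑ i, (y i - y₀ i) ^ 2
  dev : ∀ y, (∀ i, |y i - y₀ i| ≤ δ) → S.dev P s y ≤ σ

/-- The relative error at a pinned point. -/
noncomputable def pinErr (s θ σ δ : ℝ) : ℝ := (Real.sqrt (2 * θ) + 2 * θ * δ + 3 * σ / δ) / s

namespace GG

variable {S : Sys J} {s θ σ δ : ℝ} {y₀ : CIdx J P → ℝ}

/-- A pinned point is pinched along every coefficient. -/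
lemma pinched (h : Pinned S s y₀ θ σ δ) (i : CIdx J P) : Pinched S s y₀ i θ σ δ := by
  classical
  obtain ⟨g, hg⟩ := h.quad
  obtain ⟨hs, hd, hθ⟩ := h.pos
  have hy : ∀ t, |t| ≤ δ → ∀ k, |(y₀ + Pi.single i t : CIdx J P → ℝ) k - y₀ k| ≤ δ := fun t ht k => by
    by_cases hk : k = i
    · subst hk; simpa using ht
    · simp [hk, hd.le]
  have hq : ∀ t, |t| ≤ δ → S.press P s (y₀ + Pi.single i t) ≤ S.press P s y₀ + g i * t + θ * t ^ 2 :=
    fun t ht => by
      refine (hg _ (hy t ht)).trans (le_of_eq ?_)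
      simp [Pi.single_apply, ite_pow]
  have hgm : obsMean S s y₀ i = g i := by
    have key : ∀ σ' : ℝ, |σ'| = 1 → ∀ t, 0 < t → t ≤ δ → σ' * obsMean S s y₀ i ≤ σ' * g i + θ * t :=
      fun σ' hσ t ht htd => by
        have h1 := (press_tangent (S := S) s y₀ i (σ' * t)).trans
          (sub_le_iff_le_add'.2 ((hq (σ' * t) (by rw [abs_mul, hσ, one_mul, abs_of_pos ht]; exact htd)).trans
            (le_of_eq (add_assoc _ _ _))))
        have hσ2 : σ' ^ 2 = 1 := by rw [← sq_abs, hσ, one_pow]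
        rw [mul_pow, hσ2, one_mul] at h1
        exact le_of_mul_le_mul_left (a := t) (by linarith) ht
    have lim : ∀ σ' : ℝ, |σ'| = 1 → σ' * obsMean S s y₀ i ≤ σ' * g i := fun σ' hσ => by
      refine le_of_forall_pos_le_add fun ε hε => ?_
      have ht : 0 < min δ (ε / (θ + 1)) := lt_min hd (div_pos hε (by linarith))
      refine (key σ' hσ _ ht (min_le_left _ _)).trans ?_
      have h2 : θ * min δ (ε / (θ + 1)) ≤ θ * (ε / (θ + 1)) :=
        mul_le_mul_of_nonneg_left (min_le_right _ _) hθ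
      have h3 : θ * (ε / (θ + 1)) ≤ ε := by
        rw [mul_div_assoc', div_le_iff₀ (by linarith)]; nlinarith
      linarith
    have a := lim 1 (by norm_num)
    have b := lim (-1) (by norm_num)
    linarith
  refine ⟨hd, hθ, fun t ht => ?_, fun t ht => h.dev _ (hy t ht)⟩
  rw [hgm]
  exact (hq t ht).trans (le_of_eq (by ring))

lemma pinErr_nonneg (h : Pinned S s y₀ θ σ δ) : 0 ≤ pinErr s θ σ δ := by
  obtain ⟨hs, hd, hθ⟩ := h.pos
  have h0 : 0 ≤ σ := le_trans (integral_nonneg fun z => abs_nonneg _) (h.dev y₀ fun i => by simp [hd.le])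
  unfold pinErr
  positivity

lemma fluct_pin (h : Pinned S s y₀ θ σ δ) (i : CIdx J P) :
    ∫ z, Gibbs.gmean (hw S s y₀ z) (fun x => |obs S s i z x - obsMean S s y₀ i|) ∂dlaw S P ≤
      s * pinErr s θ σ δ := by
  obtain ⟨hs, hd, hθ⟩ := h.pos
  refine (fluct_le (pinched h i)).trans ?_
  rw [pinErr, mul_div_cancel₀ _ hs.ne']
  nlinarith [mul_nonneg hθ hd.le]

/-- All observables fluctuate little relative to their scales. -/
structure Tight (S : Sys J) (s : ℝ) (y : CIdx J P → ℝ) (ρ : ℝ) : Prop where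
  pos : 0 < s
  nonneg : 0 ≤ ρ
  low : ∀ e, 0 < y (Sum.inl e)
  field : ∀ e, ∫ z, Gibbs.gmean (hw S s y z)
    (fun x => |obs S s (Sum.inl e) z x - obsMean S s y (Sum.inl e)|) ∂dlaw S P ≤ y (Sum.inl e) * ρ
  self : ∀ j, ∫ z, Gibbs.gmean (hw S s y z)
    (fun x => |obs S s (Sum.inr j) z x - obsMean S s y (Sum.inr j)|) ∂dlaw S P ≤ s * ρ

lemma tight_of_pinned (h : Pinned S s y₀ θ σ δ) : Tight S s y₀ (pinErr s θ σ δ) where
  pos := h.pos.1
  nonneg := pinErr_nonneg h
  low e := h.pos.1.trans_le (h.low e)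
  field e := (fluct_pin h (Sum.inl e)).trans (mul_le_mul_of_nonneg_right (h.low e) (pinErr_nonneg h))
  self j := fluct_pin h (Sum.inr j)

lemma expect_eq (s : ℝ) (y : CIdx J P → ℝ) {n : ℕ} (Φ : OArr J n → ℝ) :
    S.expect s y Φ = ∫ z, Gibbs.gav (hw S s y z) (fun x => Φ (S.gram z.1 x)) ∂dlaw S P :=
  avg_eq s y n _

lemma measurable_ev {n : ℕ} {Φ : OArr J n → ℝ} (hΦ : Continuous Φ) (x : Fin n → S.X) :
    Measurable fun z : Dis S P => Φ (S.gram z.1 x) :=
  hΦ.measurable.comp ((measurable_gram x).comp measurable_fst)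

lemma gram_self (ω : S.Ω) {n : ℕ} (x : Fin n → S.X) (a : Fin n) (j : J) :
    S.gram ω x a a j = ‖S.v ω (x a) j‖ ^ 2 := real_inner_self_eq_norm_sq _

lemma expect_self_eq (s : ℝ) (y : CIdx J P → ℝ) (f : (J → ℝ) → ℝ) :
    S.expect s y (n := 1) (fun R => f (R 0 0)) =
      ∫ z, Gibbs.gmean (hw S s y z) (fun x => f fun j => ‖S.v z.1 x j‖ ^ 2) ∂dlaw S P := by
  rw [expect_eq]
  refine integral_congr_ae (Filter.Eventually.of_forall fun z => ?_)
  have e : ∀ x : Fin 1 → S.X, f (S.gram z.1 x 0 0) = f fun j => ‖S.v z.1 (x 0) j‖ ^ 2 := fun x =>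
    congrArg f (funext fun j => gram_self z.1 x 0 j)
  simp only [e]
  exact Gibbs.gav_marginal (hw S s y z) (0 : Fin 1) fun a => f fun j => ‖S.v z.1 a j‖ ^ 2

end GG

/-- Self-overlaps concentrate at a tight point. -/
theorem GG.diag_of_tight {S : Sys J} {s ρ : ℝ} {y₀ : CIdx J P → ℝ} (h : GG.Tight S s y₀ ρ) (j : J) :
    S.expect s y₀ (n := 1) (fun R => |R 0 0 j - S.expect s y₀ (n := 1) fun R' => R' 0 0 j|) ≤ ρ := by
  have hs := h.pos
  set c := S.expect s y₀ (n := 1) fun R' => R' 0 0 j with hc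
  have hm : GG.obsMean S s y₀ (Sum.inr j) = s * c := by
    rw [hc, GG.expect_self_eq s y₀ (fun a => a j), obsMean, ← integral_const_mul]
    refine integral_congr_ae (Filter.Eventually.of_forall fun z => ?_)
    simp only [Gibbs.gmean, GG.obs, Finset.mul_sum, mul_left_comm s]
  rw [GG.expect_self_eq s y₀ (fun a => |a j - c|)]
  refine le_of_mul_le_mul_left (a := s) ?_ hs
  rw [← integral_const_mul]
  refine le_trans (le_of_eq ?_) (h.self j)
  refine integral_congr_ae (Filter.Eventually.of_forall fun z => ?_)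
  simp only [Gibbs.gmean, GG.obs, hm, Finset.mul_sum, ← mul_sub, abs_mul, abs_of_pos hs, mul_left_comm s]

theorem diag_concentrates (S : Sys J) {s θ σ δ : ℝ} {y₀ : CIdx J P → ℝ}
    (h : Pinned S s y₀ θ σ δ) (j : J) :
    S.expect s y₀ (n := 1) (fun R => |R 0 0 j - S.expect s y₀ (n := 1) fun R' => R' 0 0 j|) ≤
      pinErr s θ σ δ :=
  GG.diag_of_tight (GG.tight_of_pinned h) j

namespace GG

variable {S : Sys J} {s : ℝ} {y : CIdx J P → ℝ}

/-- The monomial of the overlaps of two replicas. -/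
noncomputable def mov (e : Mon J P) (a b : J → ℝ) : ℝ := monom (fun j => (e.1 j : ℕ)) fun j => a j * b j

lemma continuous_monom (e : J → ℕ) : Continuous fun a : J → ℝ => monom e a :=
  continuous_finsetProd _ fun j _ => (continuous_apply j).pow _

/-- Integration by parts in the Gaussian coordinates at fixed disorder. -/
lemma stein_fixed (s : ℝ) (y : CIdx J P → ℝ) (e : Mon J P) {n : ℕ} (l : Fin n) (Φ : OArr J n → ℝ)
    (ω : S.Ω) :
    ∫ g, Gibbs.gav (hw S s y (ω, g)) (fun x : Fin n → S.X => Φ (S.gram ω x) * S.field ω g (x l) e)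
        ∂stdGaussian (EuclideanSpace ℝ (GIdx J P S.D)) =
      ∫ g, y (Sum.inl e) * ((∑ k, Gibbs.gav (hw S s y (ω, g)) (fun x : Fin n → S.X =>
          Φ (S.gram ω x) * monom (fun j => (e.1 j : ℕ)) (S.gram ω x l k))) -
        n * Gibbs.gav (hw S s y (ω, g)) (fun x : Fin (n + 1) → S.X =>
          Φ (osub (S.gram ω x) Fin.castSucc) *
            monom (fun j => (e.1 j : ℕ)) (S.gram ω x l.castSucc (Fin.last n))))
        ∂stdGaussian (EuclideanSpace ℝ (GIdx J P S.D)) := by
  classical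
  set M : J → ℕ := fun j => (e.1 j : ℕ)
  set W := fvec S (fun e' => y (Sum.inl e')) ω
  set w := fvec S (Pi.single e 1) ω
  set b : S.X → ℝ := fun x => S.logw ω x + s * ∑ j, y (Sum.inr j) * ‖S.v ω x j‖ ^ 2
  have hh : ∀ g, hw S s y (ω, g) = Gibbs.inField b W g := fun g => funext fun x => by
    have h1 := ham_eq (S := S) s y (ω, g) x
    simp only [hw, Gibbs.inField, b, W] at h1 ⊢
    linarith
  have hf : ∀ (g : EuclideanSpace ℝ (GIdx J P S.D)) x, S.field ω g x e = ⟪g, w x⟫ := fun g x => by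
    have := inner_fvec_right (S := S) (Pi.single e 1) (ω, g) x
    simp [Pi.single_apply, ite_mul] at this
    exact this.symm
  have hC : ∀ x x', ⟪w x, W x'⟫ =
      y (Sum.inl e) * monom M fun j => ⟪S.v ω x j, S.v ω x' j⟫ := fun x x' => by
    simp [w, W, M, inner_fvec, Pi.single_apply, ite_mul]
  have hst := Gibbs.stein_gav b W w (fun x : Fin n → S.X => Φ (S.gram ω x)) l
  simp only [hh, hf]
  rw [hst]
  refine integral_congr_ae (Filter.Eventually.of_forall fun g => ?_)
  dsimp only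
  simp only [hC, ← Finset.mul_sum, mul_left_comm _ (y (Sum.inl e)), Gibbs.gav_mul_const]
  have es : Gibbs.gav (Gibbs.inField b W g) (fun x : Fin n → S.X =>
      Φ (S.gram ω x) * ∑ k, monom M fun j => ⟪S.v ω (x l) j, S.v ω (x k) j⟫) =
      ∑ k, Gibbs.gav (Gibbs.inField b W g) (fun x : Fin n → S.X =>
        Φ (S.gram ω x) * monom M (S.gram ω x l k)) := by
    simp only [Gibbs.gav, Finset.mul_sum]
    exact Finset.sum_comm
  rw [es]
  simp only [mul_sub]
  rfl

lemma continuous_pair (M : J → ℕ) {n : ℕ} {Φ : OArr J n → ℝ} (hΦ : Continuous Φ) (a b : Fin n) :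
    Continuous fun R : OArr J n => Φ R * monom M (R a b) :=
  hΦ.mul ((continuous_monom M).comp ((continuous_apply b).comp (continuous_apply a)))

lemma continuous_sub' {n : ℕ} {Φ : OArr J n → ℝ} (hΦ : Continuous Φ) :
    Continuous fun R : OArr J (n + 1) => Φ (osub R Fin.castSucc) :=
  hΦ.comp (continuous_pi fun a => continuous_pi fun b =>
    (continuous_apply b.castSucc).comp (continuous_apply a.castSucc))

lemma integrable_ev (s : ℝ) (y : CIdx J P → ℝ) {n : ℕ} {Φ : OArr J n → ℝ} (hΦ : Continuous Φ)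
    {B : ℝ} (hB : ∀ (ω : S.Ω) x, |Φ (S.gram ω x)| ≤ B) :
    Integrable (fun z : Dis S P => Gibbs.gav (hw S s y z) fun x => Φ (S.gram z.1 x)) (dlaw S P) :=
  integrable_gav s y (fun x => measurable_ev hΦ x) (integrable_const B) fun z x => hB z.1 x

lemma abs_pair_le (M : J → ℕ) {n : ℕ} {Φ : OArr J n → ℝ} {B : ℝ} (hB : ∀ R, |Φ R| ≤ B)
    {m : ℕ} (ω : S.Ω) (x : Fin m → S.X) (R : OArr J n) (a b : Fin m) :
    |Φ R * monom M (S.gram ω x a b)| ≤ B := by
  rw [abs_mul]
  exact (mul_le_of_le_one_right (abs_nonneg _)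
    (abs_monom_le _ fun j => abs_gram_le ω x a b j)).trans (hB _)

/-- Integration by parts for the field of one monomial. -/
lemma ibp (s : ℝ) (y : CIdx J P → ℝ) (e : Mon J P) {n : ℕ} (l : Fin n) {Φ : OArr J n → ℝ}
    (hΦ : Continuous Φ) {B : ℝ} (hB : ∀ R, |Φ R| ≤ B) :
    ∫ z, Gibbs.gav (hw S s y z) (fun x => Φ (S.gram z.1 x) * S.field z.1 z.2 (x l) e) ∂dlaw S P =
      y (Sum.inl e) * (∑ k, S.expect s y (fun R : OArr J n =>
          Φ R * monom (fun j => (e.1 j : ℕ)) (R l k)) -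
        n * S.expect s y (fun R : OArr J (n + 1) =>
          Φ (osub R Fin.castSucc) * monom (fun j => (e.1 j : ℕ)) (R l.castSucc (Fin.last n)))) := by
  generalize hM : (fun j => (e.1 j : ℕ)) = M
  have hm1 : ∀ k, Integrable (fun z : Dis S P => Gibbs.gav (hw S s y z)
      (fun x : Fin n → S.X => Φ (S.gram z.1 x) * monom M (S.gram z.1 x l k))) (dlaw S P) := fun k =>
    integrable_ev s y (continuous_pair M hΦ l k) fun ω x => abs_pair_le M hB ω x _ l k
  have hm2 : Integrable (fun z : Dis S P => Gibbs.gav (hw S s y z) (fun x : Fin (n + 1) → S.X =>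
      Φ (osub (S.gram z.1 x) Fin.castSucc) * monom M (S.gram z.1 x l.castSucc (Fin.last n))))
      (dlaw S P) :=
    integrable_ev s y (continuous_pair M (continuous_sub' hΦ) l.castSucc (Fin.last n))
      fun ω x => abs_pair_le M hB ω x _ l.castSucc (Fin.last n)
  have hF : Integrable (fun z : Dis S P => Gibbs.gav (hw S s y z)
      (fun x : Fin n → S.X => Φ (S.gram z.1 x) * S.field z.1 z.2 (x l) e)) (dlaw S P) :=
    integrable_gav s y (Θ := fun z x => Φ (S.gram z.1 x) * obs S s (Sum.inl e) z (x l))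
      (fun x => (measurable_ev hΦ x).mul (measurable_obs s (Sum.inl e) (x l)))
      ((integrable_obsBd s).const_mul B) fun z x => by
        rw [abs_mul]
        exact mul_le_mul (hB _) (abs_obs_le s (Sum.inl e) z (x l)) (abs_nonneg _)
          ((abs_nonneg _).trans (hB (S.gram z.1 x)))
  rw [expect_eq s y (fun R : OArr J (n + 1) => Φ (osub R Fin.castSucc) * monom M (R l.castSucc (Fin.last n)))]
  simp only [expect_eq s y (fun R : OArr J n => Φ R * monom M (R l _))]
  rw [← integral_finsetSum _ fun k _ => hm1 k, ← integral_const_mul (n : ℝ),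
    ← integral_sub (integrable_finsetSum _ fun k _ => hm1 k) (hm2.const_mul _), ← integral_const_mul,
    integral_prod _ hF,
    integral_prod _ (((integrable_finsetSum _ fun k _ => hm1 k).sub' (hm2.const_mul _)).const_mul _)]
  subst hM
  exact integral_congr_ae (Filter.Eventually.of_forall fun ω => stein_fixed s y e l Φ ω)

variable {ρ : ℝ}

/-- Replacing a function of one replica by a constant. -/
lemma split_le {n : ℕ} (l : Fin n) {Φ : OArr J n → ℝ} (hΦ : Continuous Φ) {B : ℝ}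
    (hB : ∀ R, |Φ R| ≤ B) (f : Dis S P → S.X → ℝ) (hf : ∀ a, Measurable fun z => f z a)
    {b : Dis S P → ℝ} (hb : Integrable b (dlaw S P)) (hle : ∀ z a, |f z a| ≤ b z) (c : ℝ) :
    |(∫ z, Gibbs.gav (hw S s y z) (fun x => Φ (S.gram z.1 x) * f z (x l)) ∂dlaw S P) -
        c * S.expect s y Φ| ≤
      B * ∫ z, Gibbs.gmean (hw S s y z) (fun a => |f z a - c|) ∂dlaw S P := by
  have i1 : Integrable (fun z => Gibbs.gav (hw S s y z)
      (fun x : Fin n → S.X => Φ (S.gram z.1 x) * f z (x l))) (dlaw S P) :=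
    integrable_gav s y (Θ := fun z x => Φ (S.gram z.1 x) * f z (x l))
      (fun x => (measurable_ev hΦ x).mul (hf (x l))) (hb.const_mul B) fun z x => by
        rw [abs_mul]
        exact mul_le_mul (hB _) (hle z (x l)) (abs_nonneg _) ((abs_nonneg _).trans (hB (S.gram z.1 x)))
  have i2 := integrable_ev (S := S) (P := P) s y hΦ (B := B) fun ω x => hB _
  have i3 := integrable_gmean_of (S := S) s y (f := fun z a => |f z a - c|)
    (fun a => ((hf a).sub_const c).abs) (hb.fun_add (integrable_const |c|))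
    (fun z a => by rw [abs_abs]; exact (abs_sub _ _).trans (add_le_add (hle z a) le_rfl))
  rw [expect_eq, ← integral_const_mul c, ← integral_sub i1 (i2.const_mul c), ← integral_const_mul B,
    ← Real.norm_eq_abs]
  refine norm_integral_le_of_norm_le (i3.const_mul B) (Filter.Eventually.of_forall fun z => ?_)
  show ‖Gibbs.gav (hw S s y z) (fun x => Φ (S.gram z.1 x) * f z (x l)) -
    c * Gibbs.gav (hw S s y z) (fun x => Φ (S.gram z.1 x))‖ ≤ _
  rw [Real.norm_eq_abs, ← Gibbs.gav_mul_const, ← Gibbs.gav_sub,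
    ← Gibbs.gav_marginal (hw S s y z) l, ← Gibbs.gav_mul_const]
  refine (Finset.abs_sum_le_sum_abs _ _).trans (Finset.sum_le_sum fun x _ => ?_)
  dsimp only
  rw [abs_mul, abs_of_nonneg (Gibbs.tw_nonneg _ x),
    show Φ (S.gram z.1 x) * f z (x l) - c * Φ (S.gram z.1 x) = Φ (S.gram z.1 x) * (f z (x l) - c) by
      ring, abs_mul]
  exact mul_le_mul_of_nonneg_left (mul_le_mul_of_nonneg_right (hB _) (abs_nonneg _))
    (Gibbs.tw_nonneg _ x)

lemma abs_sq_norm_le (ω : S.Ω) (a : S.X) (j : J) : |(‖S.v ω a j‖ ^ 2)| ≤ 1 := by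
  rw [abs_pow, abs_norm]; exact pow_le_one₀ (norm_nonneg _) (S.norm ω a j)

lemma measurable_self (M : J → ℕ) (a : S.X) :
    Measurable fun z : Dis S P => monom M fun j => ‖S.v z.1 a j‖ ^ 2 :=
  (continuous_monom M).measurable.comp
    (measurable_pi_iff.2 fun j => ((S.measV a j).comp measurable_fst).norm.pow_const 2)

lemma abs_expect_le {n : ℕ} {Φ : OArr J n → ℝ} {B : ℝ} (hB : ∀ (ω : S.Ω) x, |Φ (S.gram ω x)| ≤ B) :
    |S.expect s y Φ| ≤ B := by
  rw [expect_eq, ← Real.norm_eq_abs]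
  refine (norm_integral_le_of_norm_le (μ := dlaw S P) (g := fun _ => B) (integrable_const B)
    (Filter.Eventually.of_forall fun z => ?_)).trans (le_of_eq (by rw [integral_const, probReal_univ, one_smul]))
  exact (Real.norm_eq_abs _).le.trans (Gibbs.abs_gav_le _ fun x => hB z.1 x)

/-- Monomials of self-overlaps concentrate. -/
lemma self_dist (h : Tight S s y ρ) {M : J → ℕ} (hM : ∀ j, M j ≤ P) :
    ∫ z, Gibbs.gmean (hw S s y z) (fun a => |(monom M fun j => ‖S.v z.1 a j‖ ^ 2) -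
        monom M fun j => S.expect s y (n := 1) fun R => R 0 0 j|) ∂dlaw S P ≤
      P * Fintype.card J * ρ := by
  set d : J → ℝ := fun j => S.expect s y (n := 1) fun R => R 0 0 j with hd
  have hd1 : ∀ j, |d j| ≤ 1 := fun j => abs_expect_le fun ω x => abs_gram_le ω x 0 0 j
  have hj : ∀ j, Integrable (fun z : Dis S P => Gibbs.gmean (hw S s y z)
      fun a => |‖S.v z.1 a j‖ ^ 2 - d j|) (dlaw S P) := fun j =>
    integrable_gmean_of s y (f := fun z a => |‖S.v z.1 a j‖ ^ 2 - d j|)
      (fun a => ((((S.measV a j).comp measurable_fst).norm.pow_const 2).sub_const _).abs)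
      (integrable_const (2 : ℝ)) fun z a => by
        rw [abs_abs]
        exact (abs_sub _ _).trans
          (le_trans (add_le_add (abs_sq_norm_le z.1 a j) (hd1 j)) (by norm_num))
  have hl : Integrable (fun z : Dis S P => Gibbs.gmean (hw S s y z)
      fun a => |(monom M fun j => ‖S.v z.1 a j‖ ^ 2) - monom M d|) (dlaw S P) :=
    integrable_gmean_of s y (f := fun z a => |(monom M fun j => ‖S.v z.1 a j‖ ^ 2) - monom M d|)
      (fun a => ((measurable_self M a).sub_const _).abs) (integrable_const (2 : ℝ)) fun z a => by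
        rw [abs_abs]
        exact (abs_sub _ _).trans (le_trans
          (add_le_add (abs_monom_le _ (abs_sq_norm_le z.1 a)) (abs_monom_le _ hd1)) (by norm_num))
  refine (integral_mono hl (integrable_finsetSum Finset.univ fun j _ => (hj j).const_mul (P : ℝ))
    fun z => ?_).trans ?_
  · calc Gibbs.gmean (hw S s y z) (fun a => |(monom M fun j => ‖S.v z.1 a j‖ ^ 2) - monom M d|)
        ≤ ∑ a, Gibbs.pw (hw S s y z) a * ∑ j, (P : ℝ) * |‖S.v z.1 a j‖ ^ 2 - d j| := by
          refine Finset.sum_le_sum fun a _ => mul_le_mul_of_nonneg_left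
            ((abs_monom_sub_le M (abs_sq_norm_le z.1 a) hd1).trans (Finset.sum_le_sum fun j _ => ?_))
            (Gibbs.pw_pos _ a).le
          exact mul_le_mul_of_nonneg_right (Nat.cast_le.2 (hM j)) (abs_nonneg _)
      _ = _ := by
          simp only [Gibbs.gmean, Finset.mul_sum, mul_left_comm _ (P : ℝ)]
          exact Finset.sum_comm
  · rw [integral_finsetSum _ fun j _ => (hj j).const_mul (P : ℝ)]
    simp only [integral_const_mul]
    refine le_trans (Finset.sum_le_card_nsmul _ _ ((P : ℝ) * ρ) fun j _ =>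
      mul_le_mul_of_nonneg_left ?_ (Nat.cast_nonneg P)) (le_of_eq ?_)
    · have := diag_of_tight h j
      rwa [expect_self_eq s y (fun a => |a j - d j|)] at this
    · simp only [Finset.card_univ, nsmul_eq_mul]; ring

/-- The covariance of a bounded function and a self-overlap monomial is small. -/
lemma self_decouple (h : Tight S s y ρ) {M : J → ℕ} (hM : ∀ j, M j ≤ P) {n : ℕ} (l : Fin n)
    {Φ : OArr J n → ℝ} (hΦ : Continuous Φ) {B : ℝ} (hB : ∀ R, |Φ R| ≤ B) :
    |S.expect s y (fun R : OArr J n => Φ R * monom M (R l l)) -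
        (S.expect s y (n := 1) fun R => monom M (R 0 0)) * S.expect s y Φ| ≤
      B * (2 * P * Fintype.card J * ρ) := by
  have hdist := self_dist h hM
  have hd1 : ∀ j, |S.expect s y (n := 1) (fun R => R 0 0 j)| ≤ 1 := fun j =>
    abs_expect_le fun ω x => abs_gram_le ω x 0 0 j
  set d : J → ℝ := fun j => S.expect s y (n := 1) fun R => R 0 0 j with hd
  set κ := (P : ℝ) * Fintype.card J * ρ with hκ
  have hρ : 0 ≤ κ := mul_nonneg (by positivity) h.nonneg
  have hfb : ∀ (z : Dis S P) a, |monom M fun j => ‖S.v z.1 a j‖ ^ 2| ≤ (1 : ℝ) :=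
    fun z a => abs_monom_le _ (abs_sq_norm_le z.1 a)
  have h1 : |S.expect s y (fun R : OArr J n => Φ R * monom M (R l l)) -
      monom M d * S.expect s y Φ| ≤ B * κ := by
    refine le_trans (le_of_eq ?_) ((split_le (P := P) l hΦ hB (fun z a => monom M fun j => ‖S.v z.1 a j‖ ^ 2)
      (measurable_self M) (integrable_const 1) hfb (monom M d)).trans
      (mul_le_mul_of_nonneg_left hdist ((abs_nonneg _).trans (hB fun _ _ _ => 0))))
    rw [expect_eq s y fun R : OArr J n => Φ R * monom M (R l l)]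
    congr 2
    refine integral_congr_ae (Filter.Eventually.of_forall fun z => ?_)
    dsimp only
    congr 1
    funext x
    congr 1
    exact congrArg (monom M) (funext fun j => gram_self z.1 x l j)
  have h2 : |(S.expect s y (n := 1) fun R => monom M (R 0 0)) - monom M d| ≤ κ := by
    have h3 := split_le (P := P) (s := s) (y := y) (n := 1) 0 (Φ := fun _ => (1 : ℝ)) continuous_const
      (B := 1) (fun _ => by simp) (fun z a => monom M fun j => ‖S.v z.1 a j‖ ^ 2)
      (measurable_self M) (integrable_const 1) hfb (monom M d)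
    have e : S.expect s y (n := 1) (fun _ => (1 : ℝ)) = 1 := by
      simp [expect_eq, Gibbs.gav_const]
    rw [e, mul_one, one_mul] at h3
    refine le_trans (le_of_eq ?_) (h3.trans hdist)
    rw [expect_eq s y fun R : OArr J 1 => monom M (R 0 0)]
    congr 2
    refine integral_congr_ae (Filter.Eventually.of_forall fun z => ?_)
    dsimp only
    congr 1
    funext x
    rw [one_mul]
    exact congrArg (monom M) (funext fun j => gram_self z.1 x 0 j)
  have h4 : |((S.expect s y (n := 1) fun R => monom M (R 0 0)) - monom M d) * S.expect s y Φ| ≤ κ * B := by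
    rw [abs_mul]; exact mul_le_mul h2 (abs_expect_le fun ω x => hB _) (abs_nonneg _) hρ
  obtain ⟨a1, a2⟩ := abs_le.1 h1
  obtain ⟨b1, b2⟩ := abs_le.1 h4
  rw [show B * (2 * P * Fintype.card J * ρ) = 2 * (κ * B) by rw [hκ]; ring, abs_le]
  constructor <;> linarith

lemma obsMean_eq (s : ℝ) (y : CIdx J P → ℝ) (e : Mon J P) :
    obsMean S s y (Sum.inl e) = y (Sum.inl e) *
      ((S.expect s y (n := 1) fun R => monom (fun j => (e.1 j : ℕ)) (R 0 0)) -
        S.expect s y fun R : OArr J 2 => monom (fun j => (e.1 j : ℕ)) (R 0 1)) := by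
  have h1 := ibp (S := S) s y e (n := 1) 0 (Φ := fun _ => (1 : ℝ)) continuous_const
    (B := 1) (fun _ => by simp)
  simp only [one_mul, Fin.sum_univ_one, Nat.cast_one] at h1
  refine Eq.trans ?_ h1
  refine integral_congr_ae (Filter.Eventually.of_forall fun z => ?_)
  exact (Gibbs.gav_marginal (hw S s y z) (0 : Fin 1) fun a => S.field z.1 z.2 a e).symm

end GG

open GG in
/-- The identities at a tight point. -/
theorem GG.gg_of_tight {S : Sys J} {s ρ : ℝ} {y₀ : CIdx J P → ℝ}
    (h : Tight S s y₀ ρ) {n : ℕ} (l : Fin n) {Φ : OArr J n → ℝ} (hΦ : Continuous Φ)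
    {B : ℝ} (hB : ∀ R, |Φ R| ≤ B) (e : Mon J P) :
    |(n : ℝ) * S.expect s y₀ (fun R : OArr J (n + 1) =>
        Φ (osub R Fin.castSucc) * monom (fun j => (e.1 j : ℕ)) (R l.castSucc (Fin.last n))) -
      (S.expect s y₀ Φ *
          S.expect s y₀ (fun R : OArr J 2 => monom (fun j => (e.1 j : ℕ)) (R 0 1)) +
        ∑ l' ∈ Finset.univ.erase l,
          S.expect s y₀ fun R : OArr J n => Φ R * monom (fun j => (e.1 j : ℕ)) (R l l'))| ≤
      B * (1 + 2 * P * Fintype.card J) * ρ := by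
  classical
  have hy0 : 0 < y₀ (Sum.inl e) := h.low e
  have hρ : 0 ≤ ρ := h.nonneg
  have hB0 : 0 ≤ B := (abs_nonneg _).trans (hB fun _ _ _ => 0)
  have hg1 := obsMean_eq (S := S) s y₀ e
  have hib := ibp (S := S) s y₀ e l hΦ hB
  have hF := (split_le l hΦ hB (fun z x => S.field z.1 z.2 x e) (measurable_obs s (Sum.inl e))
      (integrable_obsBd s) (fun z x => abs_obs_le s (Sum.inl e) z x)
      (obsMean S s y₀ (Sum.inl e))).trans
    (mul_le_mul_of_nonneg_left (h.field e) hB0)
  have hQC := self_decouple h (M := fun j => (e.1 j : ℕ)) (fun j => Nat.lt_succ_iff.1 (e.1 j).isLt) l hΦ hB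
  rw [← Finset.add_sum_erase _ _ (Finset.mem_univ l)] at hib
  rw [hib, hg1] at hF
  set c := y₀ (Sum.inl e)
  set E := S.expect s y₀ Φ
  set T := S.expect s y₀ fun R : OArr J (n + 1) =>
    Φ (osub R Fin.castSucc) * monom (fun j => (e.1 j : ℕ)) (R l.castSucc (Fin.last n))
  set D := ∑ l' ∈ Finset.univ.erase l,
    S.expect s y₀ fun R : OArr J n => Φ R * monom (fun j => (e.1 j : ℕ)) (R l l')
  set Q := S.expect s y₀ fun R : OArr J n => Φ R * monom (fun j => (e.1 j : ℕ)) (R l l)
  set C11 := S.expect s y₀ (n := 1) fun R => monom (fun j => (e.1 j : ℕ)) (R 0 0)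
  set C12 := S.expect s y₀ fun R : OArr J 2 => monom (fun j => (e.1 j : ℕ)) (R 0 1)
  obtain ⟨a1, a2⟩ := abs_le.1 hF
  obtain ⟨b1, b2⟩ := abs_le.1 hQC
  have hc1 := mul_le_mul_of_nonneg_left b1 hy0.le
  have hc2 := mul_le_mul_of_nonneg_left b2 hy0.le
  have hc3 : B * (c * ρ) = c * (B * ρ) := by ring
  refine le_of_mul_le_mul_left (a := c) ?_ hy0
  rw [← abs_of_pos hy0, ← abs_mul, abs_of_pos hy0, abs_le]
  constructor <;> linarith

theorem gg_of_pinned (S : Sys J) {s θ σ δ : ℝ} {y₀ : CIdx J P → ℝ}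
    (h : Pinned S s y₀ θ σ δ) {n : ℕ} (l : Fin n) {Φ : OArr J n → ℝ} (hΦ : Continuous Φ)
    {B : ℝ} (hB : ∀ R, |Φ R| ≤ B) (e : Mon J P) :
    |(n : ℝ) * S.expect s y₀ (fun R : OArr J (n + 1) =>
        Φ (osub R Fin.castSucc) * monom (fun j => (e.1 j : ℕ)) (R l.castSucc (Fin.last n))) -
      (S.expect s y₀ Φ *
          S.expect s y₀ (fun R : OArr J 2 => monom (fun j => (e.1 j : ℕ)) (R 0 1)) +
        ∑ l' ∈ Finset.univ.erase l,
          S.expect s y₀ fun R : OArr J n => Φ R * monom (fun j => (e.1 j : ℕ)) (R l l'))| ≤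
      B * (1 + 2 * P * Fintype.card J) * pinErr s θ σ δ :=
  GG.gg_of_tight (GG.tight_of_pinned h) l hΦ hB e

end Vale.Agent.P166F
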