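import Vale.Agent.P166F.Haar.Poincare

/-!
P166: rotation invariance and concentration for left-invariant laws on the orthogonal matrices.
-/

namespace Vale.Agent.P166F

open MeasureTheory Matrix
open Vale.Agent.P166N.Spectrum (OrthInvLaw)

variable {N : ℕ}

/-- The rotation by `t` in the plane of the rows `i` and `j`. -/
noncomputable def rot (i j : Fin N) (t : ℝ) (U : Fin N → Fin N → ℝ) : Fin N → Fin N → ℝ :=
  fun a b => if a = i then Real.cos t * U i b + Real.sin t * U j b
    else if a = j then Real.cos t * U j b - Real.sin t * U i b else U a b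

lemma rot_at_zero (i j : Fin N) (U : Fin N → Fin N → ℝ) : rot i j 0 U = U := by
  funext a b
  simp only [rot, Real.cos_zero, Real.sin_zero, one_mul, zero_mul, add_zero, sub_zero]
  split_ifs with h1 h2
  · rw [h1]
  · rw [h2]
  · rfl

/-- The velocity of the rotation of two rows is the derivative `Orth.dl`. -/
lemma deriv_comp_rot {f : (Fin N → Fin N → ℝ) → ℝ} (hf : ContDiff ℝ 1 f) {i j : Fin N}
    (hij : i ≠ j) (U : Fin N → Fin N → ℝ) :
    deriv (fun t => f (rot i j t U)) 0 = Orth.dl f j i U := by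
  have hR : HasDerivAt (fun t => rot i j t U)
      (Orth.mm (of.symm (Orth.pk j (Pi.single i 1))) U) 0 := by
    refine hasDerivAt_pi.2 fun a => hasDerivAt_pi.2 fun b => ?_
    have hv : Orth.mm (of.symm (Orth.pk j (Pi.single i 1))) U a b =
        if a = i then U j b else if a = j then -U i b else 0 := by
      simp only [Orth.mm_apply, of_symm_apply, Orth.pk_apply, Pi.single_apply, sub_mul,
        Finset.sum_sub_distrib, ite_mul, mul_ite, one_mul, mul_one, zero_mul, mul_zero,
        Finset.sum_ite_eq', Finset.mem_univ, if_true]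
      split_ifs <;> simp_all
    rw [hv]
    simp only [rot]
    split_ifs with h1 h2
    · simpa [Pi.add_def, Pi.sub_def] using ((Real.hasDerivAt_cos 0).mul_const (U i b)).add
        ((Real.hasDerivAt_sin 0).mul_const (U j b))
    · simpa [Pi.add_def, Pi.sub_def] using ((Real.hasDerivAt_cos 0).mul_const (U j b)).sub
        ((Real.hasDerivAt_sin 0).mul_const (U i b))
    · exact hasDerivAt_const _ _
  exact (((hf.differentiable one_ne_zero) U).hasFDerivAt.comp_hasDerivAt_of_eq 0 hR
    (rot_at_zero i j U).symm).deriv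

theorem orth_integral_rot {ν : Measure (Fin N → Fin N → ℝ)} (hν : OrthInvLaw N ν) {i j : Fin N}
    (hij : i ≠ j) {f : (Fin N → Fin N → ℝ) → ℝ} (hf : ContDiff ℝ 1 f) :
    ∫ U, deriv (fun t => f (rot i j t U)) 0 ∂ν = 0 := by
  simp only [deriv_comp_rot hf hij]
  exact Orth.integral_dl (Orth.OrthInvLaw.stabLaw hν) hf j i

/-- The Poincare inequality with an explicit constant and without a symmetry assumption. -/
theorem orth_poincare_flip {ν : Measure (Fin N → Fin N → ℝ)} (hν : OrthInvLaw N ν)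
    {f : (Fin N → Fin N → ℝ) → ℝ} (hf : ContDiff ℝ 1 f) :
    ∫ U, (f U - ∫ U', f U' ∂ν) ^ 2 ∂ν ≤
      Real.pi ^ 2 / (2 * (N : ℝ)) *
          ∑ i, ∑ j ∈ Finset.univ.erase i, ∫ U, deriv (fun t => f (rot i j t U)) 0 ^ 2 ∂ν +
        1 / (2 * (N : ℝ)) *
          ∑ a, ∫ U, (f U - f (fun i b => if i = a then -U i b else U i b)) ^ 2 ∂ν := by
  have e : ∑ i, ∑ j ∈ Finset.univ.erase i, ∫ U, deriv (fun t => f (rot i j t U)) 0 ^ 2 ∂ν =
      ∑ a, ∑ b, ∫ U, Orth.dl f a b U ^ 2 ∂ν := by
    rw [Finset.sum_comm (γ := Fin N) (f := fun a b => ∫ U, Orth.dl f a b U ^ 2 ∂ν)]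
    refine Finset.sum_congr rfl fun i _ => ?_
    rw [← Finset.sum_erase Finset.univ (a := i)
      (f := fun j => ∫ U, Orth.dl f j i U ^ 2 ∂ν) (by simp [Orth.dl_self])]
    exact Finset.sum_congr rfl fun j hj => by
      simp only [deriv_comp_rot hf (Finset.ne_of_mem_erase hj).symm]
  have e2 : ∀ (a : Fin N) (U : Fin N → Fin N → ℝ), (fun i b => if i = a then -U i b else U i b) = Orth.mm (Orth.flip1 a) U := by
    intro a U
    funext i b
    simp only [Orth.mm, Orth.flip1, Equiv.apply_symm_apply, of_symm_apply, diagonal_mul, of_apply]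
    split <;> simp
  rw [e]
  simp only [e2]
  exact Orth.variance_le (Orth.OrthInvLaw.stabLaw hν) hf

theorem orth_poincare :
    ∃ C, ∀ (N : ℕ) (ν : Measure (Fin N → Fin N → ℝ)), OrthInvLaw N ν →
      ∀ f : (Fin N → Fin N → ℝ) → ℝ, ContDiff ℝ 1 f →
        (∀ a U, f (fun i b => if i = a then -U i b else U i b) = f U) →
        ∫ U, (f U - ∫ U', f U' ∂ν) ^ 2 ∂ν ≤
          C / (N : ℝ) * ∑ i, ∑ j ∈ Finset.univ.erase i, ∫ U, deriv (fun t => f (rot i j t U)) 0 ^ 2 ∂ν := by
  refine ⟨Real.pi ^ 2 / 2, fun N ν hν f hf hflip => ?_⟩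
  have h := orth_poincare_flip hν hf
  simp only [hflip, sub_self, ne_eq, OfNat.ofNat_ne_zero, not_false_eq_true, zero_pow,
    integral_zero, Finset.sum_const_zero, mul_zero, add_zero] at h
  rwa [div_div]

end Vale.Agent.P166F
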