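import Vale.Agent.P166F.Defs

/-!
P166: block decomposition of the energy of an atomic spectrum.
-/

namespace Vale.Agent.P166F

open MeasureTheory Filter
open scoped Topology
open Vale.Agent.P166 (spin pressure)
open Vale.Agent.P166N.Spectrum (OrthInvLaw)

variable {K N : ℕ}

/-- The part of the rotated configuration in block `k`, scaled to total norm one. -/
noncomputable def blockVec (blk : Fin N → Fin K) (U : Fin N → Fin N → ℝ) (σ : Fin N → Bool)
    (k : Fin K) : EuclideanSpace ℝ (Fin N) :=
  WithLp.toLp 2 fun i => if blk i = k then (∑ j, U i j * spin (σ j)) / Real.sqrt N else 0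

/-- Block labels with the right limiting shares. -/
def Balanced (a : Atoms K) (blk : (N : ℕ) → Fin N → Fin K) : Prop :=
  ∀ k, Tendsto (fun N => ((Finset.univ.filter fun i => blk N i = k).card : ℝ) / N) atTop
    (𝓝 (a.wt k))

/-- The mean pressure of labelled blocks. -/
noncomputable def meanPress (a : Atoms K) (β : ℝ) (blk : (N : ℕ) → Fin N → Fin K)
    (ν : (N : ℕ) → Measure (Fin N → Fin N → ℝ)) (N : ℕ) : ℝ :=
  ∫ U, pressure N β (fun i => a.lam (blk N i)) U ∂ν N

end Vale.Agent.P166F
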