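import Vale.Agent.P166F.Structure.Poly
import Vale.Agent.P157.Low.Ultra

/-!
P166: limit arrays of several overlaps, their synchronisation, and the solution of the loop equation.
-/

namespace Vale.Agent.P166F

open MeasureTheory Filter
open scoped Topology

set_option linter.unusedSectionVars false

/-- A limit array of overlaps in the groups `J` with constant self-overlaps `v`. -/
structure JArr (J : Type) [Fintype J] (v : J → ℝ) where
  law : ∀ n, Measure (OArr J n)
  prob : ∀ n, IsProbabilityMeasure (law n)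
  marg : ∀ {k n : ℕ} (e : Fin k → Fin n), Function.Injective e →
    (law n).map (fun R => osub R e) = law k
  symm : ∀ n, ∀ᵐ R ∂law n, ∀ a b, R a b = R b a
  diag : ∀ n, ∀ᵐ R ∂law n, ∀ a, R a a = v
  bdd : ∀ n, ∀ᵐ R ∂law n, ∀ a b j, |R a b j| ≤ 1
  pos : ∀ n j (c : Fin n → ℝ), ∀ᵐ R ∂law n, 0 ≤ ∑ a, ∑ b, c a * c b * R a b j
  gg : ∀ (n : ℕ) (l : Fin n) (Φ : OArr J n → ℝ) (ψ : (J → ℝ) → ℝ), Measurable Φ → Measurable ψ →
    (∃ C, ∀ R, |Φ R| ≤ C) → (∃ C, ∀ x, |ψ x| ≤ C) →
    (n : ℝ) * ∫ R, Φ (osub R Fin.castSucc) * ψ (R l.castSucc (Fin.last n)) ∂law (n + 1) =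
      (∫ R, Φ R ∂law n) * (∫ R, ψ (R 0 1) ∂law 2) +
        ∑ l' ∈ Finset.univ.erase l, ∫ R, Φ R * ψ (R l l') ∂law n

variable {J : Type} [Fintype J] [DecidableEq J]

/-- Averages of systems with vanishing defects have a limit array along a subsequence. -/
theorem exists_conv {P : ℕ → ℕ} (S : ℕ → Sys J) (s : ℕ → ℝ) (y : ∀ i, CIdx J (P i) → ℝ)
    (hdiag : ∀ j, Tendsto (fun i => (S i).expect (s i) (y i) (n := 1) fun R =>
      |R 0 0 j - (S i).expect (s i) (y i) (n := 1) fun R' => R' 0 0 j|) atTop (𝓝 0))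
    (hgg : ∀ (n : ℕ) (l : Fin n) (Φ : OArr J n → ℝ) (e : J → ℕ), Continuous Φ →
      (∃ C, ∀ R, |Φ R| ≤ C) → 0 < ∑ j, e j →
      Tendsto (fun i => (n : ℝ) * (S i).expect (s i) (y i) (fun R : OArr J (n + 1) =>
          Φ (osub R Fin.castSucc) * monom e (R l.castSucc (Fin.last n))) -
        ((S i).expect (s i) (y i) Φ *
            (S i).expect (s i) (y i) (fun R : OArr J 2 => monom e (R 0 1)) +
          ∑ l' ∈ Finset.univ.erase l,
            (S i).expect (s i) (y i) fun R : OArr J n => Φ R * monom e (R l l'))) atTop (𝓝 0)) :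
    ∃ φ : ℕ → ℕ, StrictMono φ ∧ ∃ (v : J → ℝ) (A : JArr J v), ∀ n (Φ : OArr J n → ℝ),
      Continuous Φ →
      Tendsto (fun i => (S (φ i)).expect (s (φ i)) (y (φ i)) Φ) atTop (𝓝 (∫ R, Φ R ∂A.law n)) := by
  obtain ⟨φ, hφ, μ, hlim⟩ := exists_olimit S s y
  set a : J → ℕ → ℝ := fun j i =>
    (S (φ i)).expect (s (φ i)) (y (φ i)) (n := 1) fun R => R 0 0 j with ha
  set v : J → ℝ := fun j => ∫ R, R 0 0 j ∂arrLaw (μ 1) with hv
  have hmarg : ∀ {k n : ℕ} (e : Fin k → Fin n), Function.Injective e →
      ∀ F : OArr J k → ℝ, Continuous F →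
      ∫ R, F (osub R e) ∂arrLaw (μ n) = ∫ R, F R ∂arrLaw (μ k) := fun {k n} e he F hF =>
    tendsto_nhds_unique (hlim n _ (hF.comp (continuous_osub e)))
      ((hlim k F hF).congr fun i => ((S (φ i)).expect_marg _ _ e he F).symm)
  have hmap : ∀ {k n : ℕ} (e : Fin k → Fin n), Function.Injective e →
      (arrLaw (μ n)).map (fun R => osub R e) = arrLaw (μ k) := fun {k n} e he => by
    have := Measure.isProbabilityMeasure_map (μ := arrLaw (μ n))
      (continuous_osub (J := J) e).measurable.aemeasurable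
    refine ext_of_forall_integral_eq_of_IsFiniteMeasure fun F => ?_
    rw [integral_map (continuous_osub e).measurable.aemeasurable F.continuous.aestronglyMeasurable]
    exact hmarg e he F F.continuous
  have hd1 : ∀ j, ∀ᵐ R ∂arrLaw (μ 1), R 0 0 j = v j := by
    intro j
    have hF : Continuous fun R : OArr J 1 => |R 0 0 j - v j| := by fun_prop
    have h1 := hlim 1 _ hF
    have hle : ∀ i, |(S (φ i)).expect (s (φ i)) (y (φ i)) (fun R : OArr J 1 => |R 0 0 j - v j|)| ≤
        (S (φ i)).expect (s (φ i)) (y (φ i)) (n := 1) (fun R => |R 0 0 j - a j i|) + |a j i - v j| := by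
      intro i
      have hFa : Continuous fun R : OArr J 1 => |R 0 0 j - a j i| := by fun_prop
      rw [(S (φ i)).expect_eq_integral _ _ hF, (S (φ i)).expect_eq_integral _ _ hFa]
      set ν := ((S (φ i)).ovLaw (s (φ i)) (y (φ i)) 1 : Measure (oset J 1))
      have hint : Integrable (fun R : oset J 1 => |(R : OArr J 1) 0 0 j - a j i|) ν :=
        Integrable.of_bound (hFa.comp continuous_subtype_val).aestronglyMeasurable (1 + |a j i|)
          (Eventually.of_forall fun R => by
            rw [Real.norm_eq_abs, abs_abs]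
            exact (abs_sub _ _).trans (add_le_add (R.2.1 0 0 j) le_rfl))
      rw [abs_of_nonneg (integral_nonneg fun R => abs_nonneg _)]
      have hb : ∫ R : oset J 1, |(R : OArr J 1) 0 0 j - v j| ∂ν ≤
          ∫ R : oset J 1, (|(R : OArr J 1) 0 0 j - a j i| + |a j i - v j|) ∂ν :=
        integral_mono_of_nonneg (Eventually.of_forall fun R => abs_nonneg _)
          (hint.add (integrable_const _)) (Eventually.of_forall fun R => abs_sub_le _ _ _)
      rw [integral_add hint (integrable_const _), integral_const, probReal_univ, one_smul] at hb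
      exact hb
    have h2 : Tendsto (fun i => (S (φ i)).expect (s (φ i)) (y (φ i)) (n := 1)
        (fun R => |R 0 0 j - a j i|) + |a j i - v j|) atTop (𝓝 0) := by
      have ha' : Tendsto (a j) atTop (𝓝 (v j)) := hlim 1 _ (by fun_prop)
      simpa using ((hdiag j).comp hφ.tendsto_atTop).add ((ha'.sub_const (v j)).abs)
    have h0 := tendsto_nhds_unique h1 (squeeze_zero_norm
      (fun i => (Real.norm_eq_abs _).trans_le (hle i)) h2)
    filter_upwards [(integral_eq_zero_iff_of_nonneg (fun R : OArr J 1 => abs_nonneg (R 0 0 j - v j))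
      (integrable_arrLaw _ hF)).1 h0] with R hR
    exact sub_eq_zero.1 (abs_eq_zero.1 hR)
  refine ⟨φ, hφ, v, ⟨fun n => arrLaw (μ n), fun n => inferInstance, fun e he => hmap e he,
    fun n => (ae_arrLaw _).mono fun R hR => hR.2.1, fun n => ?_,
    fun n => (ae_arrLaw _).mono fun R hR => hR.1,
    fun n j c => (ae_arrLaw _).mono fun R hR => hR.2.2 j c,
    fun n l Φ ψ hΦ hψ hΦb hψb => ogg_measurable (μ := μ) l ?_ hΦ hψ hΦb hψb⟩,
    fun n F hF => hlim n F hF⟩
  · refine ae_all_iff.2 fun b => ?_
    have he : Function.Injective ![b] := fun u w _ => Subsingleton.elim u w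
    have := ae_all_iff.2 hd1
    rw [← hmap ![b] he] at this
    filter_upwards [ae_of_ae_map (continuous_osub _).measurable.aemeasurable this] with R hR
    funext j
    simpa [osub] using hR j
  · intro Φ ψ hΦ hΦb hψ
    obtain ⟨C, hC⟩ := hΦb
    refine ogg_continuous l hΦ hC (fun e => ?_) hψ
    rcases Nat.eq_zero_or_pos (∑ j, e j) with he | he
    · have : e = 0 := funext fun j => Finset.sum_eq_zero_iff.1 he j (Finset.mem_univ j)
      subst this
      simp only [monom_zero, mul_one, integral_const, probReal_univ, smul_eq_mul, Finset.sum_const,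
        nsmul_eq_mul, hmarg _ (Fin.castSucc_injective n) Φ hΦ]
      rw [Finset.card_erase_of_mem (Finset.mem_univ l), Finset.card_univ, Fintype.card_fin,
        Nat.cast_sub (by have := l.isLt; omega)]
      push_cast
      ring
    · have hs : Continuous fun R : OArr J (n + 1) => osub R Fin.castSucc := continuous_osub _
      have hme : Continuous (monom e : (J → ℝ) → ℝ) := by unfold monom; fun_prop
      have t := ((hlim (n + 1) (fun R => Φ (osub R Fin.castSucc) *
          monom e (R l.castSucc (Fin.last n))) (by fun_prop)).const_mul (n : ℝ)).sub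
        (((hlim n Φ hΦ).mul (hlim 2 (fun R => monom e (R 0 1)) (by fun_prop))).add
          (tendsto_finsetSum (Finset.univ.erase l) fun l' _ =>
            hlim n (fun R => Φ R * monom e (R l l')) (by fun_prop)))
      exact sub_eq_zero.1
        (tendsto_nhds_unique t ((hgg n l Φ e hΦ ⟨C, hC⟩ he).comp hφ.tendsto_atTop))

variable {v : J → ℝ}

theorem JArr.ae_osub (A : JArr J v) {k n : ℕ} (e : Fin k → Fin n) (he : Function.Injective e)
    {p : OArr J k → Prop} (hp : ∀ᵐ R ∂A.law k, p R) : ∀ᵐ R ∂A.law n, p (osub R e) := by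
  rw [← A.marg e he] at hp
  exact ae_of_ae_map (continuous_osub e).measurable.aemeasurable hp

theorem JArr.self_nonneg (A : JArr J v) (j : J) : 0 ≤ v j := by
  have := A.prob 1
  obtain ⟨R, h1, h2⟩ := ((A.pos 1 j fun _ => 1).and (A.diag 1)).exists
  simpa [h2 0] using h1

/-- An overlap is at most the self-overlap in absolute value. -/
theorem JArr.abs_le_self (A : JArr J v) (n : ℕ) : ∀ᵐ R ∂A.law n, ∀ a b j, |R a b j| ≤ v j := by
  have h2 : ∀ᵐ R ∂A.law 2, ∀ j, |R 0 1 j| ≤ v j := by
    refine ae_all_iff.2 fun j => ?_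
    filter_upwards [A.pos 2 j ![1, 1], A.pos 2 j ![1, -1], A.symm 2, A.diag 2] with R hp hm hs hd
    simp [Fin.sum_univ_two, hd, hs 1 0] at hp hm
    exact abs_le.2 ⟨by linarith, by linarith⟩
  refine ae_all_iff.2 fun a => ae_all_iff.2 fun b => ?_
  by_cases hab : a = b
  · subst hab
    filter_upwards [A.diag n] with R hR j
    rw [hR a, abs_of_nonneg (A.self_nonneg j)]
  · have he : Function.Injective ![a, b] := by
      intro u w huw
      fin_cases u <;> fin_cases w <;> simp_all [eq_comm]
    filter_upwards [A.ae_osub ![a, b] he h2] with R hR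
    simpa [osub] using hR

/-- A normalised nonnegative combination of the overlaps is a limit array of one overlap. -/
theorem JArr.exists_comb (A : JArr J v) {c : J → ℝ} (hc : ∀ j, 0 ≤ c j)
    (hT : 0 < ∑ j, c j * v j) : ∃ B : P157.Low.Arr, ∀ n, B.law n =
      (A.law n).map fun R a b => (∑ j, c j * R a b j) / ∑ i, c i * v i := by
  set T := ∑ j, c j * v j with hT_def
  set g : ∀ n, OArr J n → P157.Low.Mat n := fun n R a b => (∑ j, c j * R a b j) / T with hg_def
  have hg : ∀ n, Measurable (g n) := fun n => Continuous.measurable (by simp only [hg_def]; fun_prop)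
  refine ⟨⟨fun n => (A.law n).map (g n), fun n => ?_, fun {k n} e he => ?_, fun n => ?_, fun n => ?_,
    fun n => ?_, fun n d => ?_, fun n l Φ ψ hΦ hψ hΦb hψb => ?_⟩, fun n => rfl⟩
  · have := A.prob n
    exact Measure.isProbabilityMeasure_map (hg n).aemeasurable
  · rw [Measure.map_map (P157.Low.measurable_subMat e) (hg n),
      show (fun R => P157.Low.sub R e) ∘ g n = g k ∘ fun R => osub R e from rfl,
      ← Measure.map_map (hg k) (continuous_osub e).measurable, A.marg e he]
  · refine (ae_map_iff (hg n).aemeasurable ?_).2 ?_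
    · simp only [Set.ofPred_forall]
      exact MeasurableSet.iInter fun a => MeasurableSet.iInter fun b =>
        measurableSet_eq_fun (P157.Low.measurable_entry a b) (P157.Low.measurable_entry b a)
    · filter_upwards [A.symm n] with R hR a b
      simp only [hg_def, hR a b]
  · refine (ae_map_iff (hg n).aemeasurable ?_).2 ?_
    · simp only [Set.ofPred_forall]
      exact MeasurableSet.iInter fun a =>
        measurableSet_eq_fun (P157.Low.measurable_entry a a) measurable_const
    · filter_upwards [A.diag n] with R hR a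
      simp only [hg_def, hR a, ← hT_def, div_self hT.ne']
  · refine (ae_map_iff (hg n).aemeasurable ?_).2 ?_
    · simp only [Set.ofPred_forall]
      exact MeasurableSet.iInter fun a => MeasurableSet.iInter fun b =>
        measurableSet_le (P157.Low.measurable_entry a b).norm measurable_const
    · filter_upwards [A.abs_le_self n] with R hR a b
      simp only [hg_def, abs_div, abs_of_pos hT]
      rw [div_le_one hT]
      refine (Finset.abs_sum_le_sum_abs _ _).trans (Finset.sum_le_sum fun j _ => ?_)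
      rw [abs_mul, abs_of_nonneg (hc j)]
      exact mul_le_mul_of_nonneg_left (hR a b j) (hc j)
  · refine (ae_map_iff (hg n).aemeasurable
      (measurableSet_le measurable_const (by fun_prop))).2 ?_
    filter_upwards [ae_all_iff.2 fun j => A.pos n j d] with R hR
    have e : ∑ a, ∑ b, d a * d b * g n R a b =
        (∑ j, c j * ∑ a, ∑ b, d a * d b * R a b j) / T := by
      simp only [hg_def, mul_div_assoc', Finset.mul_sum, ← Finset.sum_div]
      congr 1
      rw [Finset.sum_comm (γ := J)]
      refine Finset.sum_congr rfl fun a _ => ?_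
      rw [Finset.sum_comm (γ := J)]
      exact Finset.sum_congr rfl fun b _ => Finset.sum_congr rfl fun j _ => by ring
    rw [e]
    exact div_nonneg (Finset.sum_nonneg fun j _ => mul_nonneg (hc j) (hR j)) hT.le
  · obtain ⟨C, hC⟩ := hΦb
    obtain ⟨D, hD⟩ := hψb
    have hcomb : Measurable fun x : J → ℝ => ψ ((∑ j, c j * x j) / T) := hψ.comp (by fun_prop)
    have hg1 := hg (n + 1)
    have hsub := P157.Low.measurable_subMat (n := n + 1) (Fin.castSucc (n := n))
    have hent : ∀ {m : ℕ} (a b : Fin m), Measurable fun R : P157.Low.Mat m => ψ (R a b) :=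
      fun a b => hψ.comp (P157.Low.measurable_entry a b)
    rw [integral_map hg1.aemeasurable (f := fun R : P157.Low.Mat (n + 1) =>
        Φ (P157.Low.sub R Fin.castSucc) * ψ (R l.castSucc (Fin.last n)))
        ((hΦ.comp hsub).mul (hent _ _)).aestronglyMeasurable,
      integral_map (hg n).aemeasurable hΦ.aestronglyMeasurable,
      integral_map (hg 2).aemeasurable (hent 0 1).aestronglyMeasurable,
      Finset.sum_congr rfl fun l' _ => integral_map (hg n).aemeasurable
        (f := fun R : P157.Low.Mat n => Φ R * ψ (R l l')) (hΦ.mul (hent l l')).aestronglyMeasurable]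
    exact A.gg n l (fun R => Φ (g n R)) (fun x => ψ ((∑ j, c j * x j) / T)) (hΦ.comp (hg n)) hcomb
      ⟨C, fun R => hC _⟩ ⟨D, fun x => hD _⟩

theorem JArr.nonneg (A : JArr J v) : ∀ᵐ R ∂A.law 2, ∀ j, 0 ≤ R 0 1 j ∧ R 0 1 j ≤ v j := by
  refine ae_all_iff.2 fun j => ?_
  rcases (A.self_nonneg j).eq_or_lt with h0 | h0
  · filter_upwards [A.abs_le_self 2] with R hR
    have h := abs_le.1 (hR 0 1 j)
    exact ⟨by linarith, h.2⟩
  · have hT : 0 < ∑ i, (if i = j then (1 : ℝ) else 0) * v i := by simpa using h0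
    obtain ⟨B, hB⟩ := A.exists_comb (c := fun i => if i = j then 1 else 0)
      (fun i => by split_ifs <;> norm_num) hT
    have h1 := B.nonneg 2
    rw [hB] at h1
    filter_upwards [ae_of_ae_map (Continuous.measurable (by fun_prop)).aemeasurable h1,
      A.abs_le_self 2] with R hR hR'
    refine ⟨?_, (abs_le.1 (hR' 0 1 j)).2⟩
    simpa [div_nonneg_iff, h0.le, not_le.2 h0] using hR 0 1

/-- Ultrametricity of combinations, for all triples of replicas. -/
theorem JArr.ultra_all (A : JArr J v) {c : J → ℝ} (hc : ∀ j, 0 ≤ c j) (n : ℕ) :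
    ∀ᵐ R ∂A.law n, ∀ a b d,
      min (∑ j, c j * R a b j) (∑ j, c j * R b d j) ≤ ∑ j, c j * R a d j := by
  rcases (Finset.sum_nonneg fun j (_ : j ∈ Finset.univ) =>
    mul_nonneg (hc j) (A.self_nonneg j)).eq_or_lt with h0 | h0
  · filter_upwards [A.abs_le_self n] with R hR a b d
    have hz : ∀ a b, ∑ j, c j * R a b j = 0 := fun a b => Finset.sum_eq_zero fun j _ => by
      rcases mul_eq_zero.1 ((Finset.sum_eq_zero_iff_of_nonneg fun i _ =>
        mul_nonneg (hc i) (A.self_nonneg i)).1 h0.symm j (Finset.mem_univ j)) with hj | hj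
      · rw [hj, zero_mul]
      · have h := hR a b j
        rw [hj] at h
        rw [abs_nonpos_iff.1 h, mul_zero]
    simp [hz]
  · obtain ⟨B, hB⟩ := A.exists_comb hc h0
    have h1 := B.ultra n
    rw [hB] at h1
    filter_upwards [ae_of_ae_map (Continuous.measurable (by fun_prop)).aemeasurable h1] with R hR a b d
    have h := mul_le_mul_of_nonneg_right (hR a b d) h0.le
    simpa [min_mul_of_nonneg _ _ h0.le, div_mul_cancel₀ _ h0.ne'] using h

/-- Any nonnegative combination of the overlaps is ultrametric. -/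
theorem JArr.ultra (A : JArr J v) (c : J → ℝ) (hc : ∀ j, 0 ≤ c j) :
    ∀ᵐ R ∂A.law 3, min (∑ j, c j * R 0 1 j) (∑ j, c j * R 1 2 j) ≤ ∑ j, c j * R 0 2 j := by
  filter_upwards [A.ultra_all hc 3] with R hR
  exact hR 0 1 2

/-- All overlaps are comonotone. -/
theorem JArr.comono (A : JArr J v) (i j : J) :
    ∀ᵐ z ∂(A.law 2).prod (A.law 2), z.1 0 1 i < z.2 0 1 i → z.1 0 1 j ≤ z.2 0 1 j := by
  have := fun n => A.prob n
  have key : ∀ α β : ℚ, (A.law 2).real {R | R 0 1 i < (α : ℝ) ∧ (β : ℝ) < R 0 1 j} *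
      (A.law 2).real {R | (α : ℝ) < R 0 1 i ∧ R 0 1 j < (β : ℝ)} = 0 := by
    intro α β
    set s₁ : Set (J → ℝ) := {x | x i < (α : ℝ) ∧ (β : ℝ) < x j} with hs₁
    set s₂ : Set (J → ℝ) := {x | (α : ℝ) < x i ∧ x j < (β : ℝ)} with hs₂
    have hm₁ : MeasurableSet s₁ := (measurableSet_lt (measurable_pi_apply i) measurable_const).inter
      (measurableSet_lt measurable_const (measurable_pi_apply j))
    have hm₂ : MeasurableSet s₂ := (measurableSet_lt measurable_const (measurable_pi_apply i)).inter
      (measurableSet_lt (measurable_pi_apply j) measurable_const)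
    have h01 : Measurable fun R : OArr J 2 => R 0 1 := Continuous.measurable (by fun_prop)
    have hgg := A.gg 2 0 (fun R => s₁.indicator 1 (R 0 1)) (s₂.indicator 1)
      ((measurable_const.indicator hm₁).comp h01) (measurable_const.indicator hm₂)
      ⟨1, fun R => by simp only [Set.indicator_apply]; split_ifs <;> simp⟩
      ⟨1, fun x => by simp only [Set.indicator_apply]; split_ifs <;> simp⟩
    have hnext : ∫ R, s₁.indicator 1 (osub R Fin.castSucc 0 1) *
        s₂.indicator 1 (R (0 : Fin 2).castSucc (Fin.last 2)) ∂A.law 3 = (0 : ℝ) := by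
      refine integral_eq_zero_of_ae ?_
      filter_upwards [A.ultra_all (c := fun k => if k = i then 1 else 0)
          (fun k => by split_ifs <;> norm_num) 3,
        A.ultra_all (c := fun k => if k = j then 1 else 0) (fun k => by split_ifs <;> norm_num) 3,
        A.ultra_all (c := fun k => (if k = i then 1 else 0) + if k = j then 1 else 0)
          (fun k => by split_ifs <;> norm_num) 3, A.symm 3] with R h1 h2 h3 hs
      simp only [add_mul, Finset.sum_add_distrib, ite_mul, one_mul, zero_mul, Finset.sum_ite_eq',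
        Finset.mem_univ, if_true] at h1 h2 h3
      simp only [osub, Set.indicator_apply, ite_zero_mul_ite_zero, Pi.one_apply, mul_one,
        Pi.zero_apply, ite_eq_right_iff, one_ne_zero, imp_false]
      rintro ⟨⟨hA, hB⟩, hC, hD⟩
      change R 0 1 i < (α : ℝ) at hA
      change (β : ℝ) < R 0 1 j at hB
      change (α : ℝ) < R 0 2 i at hC
      change R 0 2 j < (β : ℝ) at hD
      have hy : R 1 2 j ≤ R 0 2 j := by
        rcases min_le_iff.1 (h2 0 1 2) with h | h <;> linarith
      have hx : R 1 2 i ≤ R 0 1 i := by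
        have h := h1 0 2 1
        rw [hs 2 1] at h
        rcases min_le_iff.1 h with h | h <;> linarith
      have h := h3 1 0 2
      rw [hs 1 0] at h
      rcases min_le_iff.1 h with h | h <;> linarith
    have hone : ∀ {t : Set (J → ℝ)}, MeasurableSet t →
        ∫ R, t.indicator (1 : (J → ℝ) → ℝ) (R 0 1) ∂A.law 2 = (A.law 2).real {R | R 0 1 ∈ t} :=
      fun {t} ht => integral_indicator_one (μ := A.law 2) (h01 ht)
    have hsame : ∫ R, s₁.indicator 1 (R 0 1) * s₂.indicator (1 : (J → ℝ) → ℝ) (R 0 1) ∂A.law 2 = 0 := by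
      refine integral_eq_zero_of_ae (Eventually.of_forall fun R => ?_)
      simp only [Set.indicator_apply, ite_zero_mul_ite_zero, Pi.one_apply, mul_one, Pi.zero_apply,
        ite_eq_right_iff, one_ne_zero, imp_false]
      rintro ⟨⟨hA, -⟩, hC, -⟩
      linarith
    simp only [hone hm₁, hone hm₂] at hgg
    rw [hnext, show (Finset.univ.erase (0 : Fin 2)) = {1} by decide, Finset.sum_singleton, hsame,
      mul_zero, add_zero] at hgg
    exact hgg.symm
  have hnull : ∀ α β : ℚ, ∀ᵐ z ∂(A.law 2).prod (A.law 2),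
      z ∉ {R | R 0 1 i < (α : ℝ) ∧ (β : ℝ) < R 0 1 j} ×ˢ
        {R | (α : ℝ) < R 0 1 i ∧ R 0 1 j < (β : ℝ)} := by
    intro α β
    rw [← measure_eq_zero_iff_ae_notMem, Measure.prod_prod]
    rcases mul_eq_zero.1 (key α β) with h | h
    · rw [(measureReal_eq_zero_iff (μ := A.law 2)).1 h, zero_mul]
    · rw [(measureReal_eq_zero_iff (μ := A.law 2)).1 h, mul_zero]
  filter_upwards [ae_all_iff.2 fun α => ae_all_iff.2 (hnull α)] with z hz hlt
  by_contra hgt
  push Not at hgt
  obtain ⟨α, hα1, hα2⟩ := exists_rat_btwn hlt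
  obtain ⟨β, hβ1, hβ2⟩ := exists_rat_btwn hgt
  exact hz α β ⟨⟨hα1, hβ2⟩, hα2, hβ1⟩

variable {K : ℕ}

/-- The expression of the loop equation. -/
def loopPoly (a : Atoms K) (s : ℝ) (ι : Fin K → J) (k l : Fin K) (R : OArr J 3) : ℝ :=
  a.wt k * R 0 1 (ι l) - a.wt l * R 0 1 (ι k) + s * (a.lam k - a.lam l) *
    (R 0 0 (ι k) * R 0 1 (ι l) + R 0 1 (ι k) * R 1 1 (ι l) - 2 * (R 0 2 (ι k) * R 2 1 (ι l)))

/-- The array satisfies the loop equation of the spectrum `a` at inverse temperature `s`. -/
structure LoopEq (a : Atoms K) (s : ℝ) (ι : Fin K → J) (A : JArr J v) : Prop where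
  inj : Function.Injective ι
  total : ∑ k, v (ι k) = 1
  one : ∀ k l, a.wt k * v (ι l) - a.wt l * v (ι k) + s * (a.lam k - a.lam l) *
    (v (ι k) * v (ι l) - ∫ R, R 0 1 (ι k) * R 0 1 (ι l) ∂A.law 2) = 0
  two : ∀ k l (φ : ℝ → ℝ), Continuous φ →
    ∫ R, φ (∑ i, R 0 1 (ι i)) * loopPoly a s ι k l R ∂A.law 3 = 0

/-- The law of the total overlap. -/
noncomputable def JArr.total (A : JArr J v) (ι : Fin K → J) : Measure ℝ :=
  (A.law 2).map fun R => ∑ i, R 0 1 (ι i)

end Vale.Agent.P166F
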