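import Vale.Agent.P166F.Defs

/-!
P166: finite disordered systems with several groups of features, perturbed by Gaussian fields along
all monomials of their overlaps and by the self-overlaps.
-/

namespace Vale.Agent.P166F

open MeasureTheory ProbabilityTheory
open scoped RealInnerProductSpace

/-- Arrays of overlaps of `n` replicas in the groups `J`. -/
abbrev OArr (J : Type) (n : ℕ) := Fin n → Fin n → J → ℝ

/-- Restriction of an array along a map of replicas. -/
def osub {J : Type} {k n : ℕ} (R : OArr J n) (e : Fin k → Fin n) : OArr J k :=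
  fun a b => R (e a) (e b)

/-- The monomial with exponents `e`. -/
def monom {J : Type} [Fintype J] (e : J → ℕ) (x : J → ℝ) : ℝ := ∏ j, x j ^ e j

/-- A system: disorder, finitely many configurations, features in groups and log-weights. -/
structure Sys (J : Type) where
  Ω : Type
  mΩ : MeasurableSpace Ω
  law : Measure Ω
  prob : IsProbabilityMeasure law
  X : Type
  finX : Fintype X
  neX : Nonempty X
  D : ℕ
  v : Ω → X → J → EuclideanSpace ℝ (Fin D)
  measV : ∀ x j, Measurable fun ω => v ω x j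
  norm : ∀ ω x j, ‖v ω x j‖ ≤ 1
  logw : Ω → X → ℝ
  measW : ∀ x, Measurable fun ω => logw ω x
  intW : ∀ x, Integrable (fun ω => logw ω x) law

attribute [instance] Sys.mΩ Sys.prob Sys.finX Sys.neX

variable {J : Type} [Fintype J] {P : ℕ}

/-- Exponents of the perturbing monomials: not all zero, each at most `P`. -/
abbrev Mon (J : Type) [Fintype J] (P : ℕ) := {e : J → Fin (P + 1) // 0 < ∑ j, (e j : ℕ)}

/-- Indices of the coefficients: monomials and self-overlaps. -/
abbrev CIdx (J : Type) [Fintype J] (P : ℕ) := Mon J P ⊕ J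

/-- Indices of the coordinates of the Gaussian fields. -/
abbrev GIdx (J : Type) [Fintype J] (P D : ℕ) :=
  (e : Mon J P) × ((j : J) → Fin (e.1 j : ℕ) → Fin D)

namespace Sys

variable [DecidableEq J]

/-- Overlaps of replicas. -/
noncomputable def gram (S : Sys J) {n : ℕ} (ω : S.Ω) (x : Fin n → S.X) : OArr J n :=
  fun a b j => ⟪S.v ω (x a) j, S.v ω (x b) j⟫

/-- The Gaussian field of one monomial at a configuration. -/
noncomputable def field (S : Sys J) (ω : S.Ω) (g : EuclideanSpace ℝ (GIdx J P S.D)) (x : S.X)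
    (e : Mon J P) : ℝ :=
  ∑ i : (j : J) → Fin (e.1 j : ℕ) → Fin S.D, g ⟨e, i⟩ * ∏ j, ∏ t, S.v ω x j (i j t)

/-- The perturbation at scale `s` with coefficients `y`. -/
noncomputable def ham (S : Sys J) (s : ℝ) (y : CIdx J P → ℝ) (ω : S.Ω)
    (g : EuclideanSpace ℝ (GIdx J P S.D)) (x : S.X) : ℝ :=
  ∑ e, y (Sum.inl e) * S.field ω g x e + s * ∑ j, y (Sum.inr j) * ‖S.v ω x j‖ ^ 2

/-- The perturbed log-sum of the weights. -/
noncomputable def logZ (S : Sys J) (s : ℝ) (y : CIdx J P → ℝ)
    (z : S.Ω × EuclideanSpace ℝ (GIdx J P S.D)) : ℝ :=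
  Real.log (∑ x, Real.exp (S.logw z.1 x + S.ham s y z.1 z.2 x))

/-- Its mean. -/
noncomputable def press (S : Sys J) (P : ℕ) (s : ℝ) (y : CIdx J P → ℝ) : ℝ :=
  ∫ z, S.logZ s y z ∂S.law.prod (stdGaussian (EuclideanSpace ℝ (GIdx J P S.D)))

/-- Its mean absolute deviation. -/
noncomputable def dev (S : Sys J) (P : ℕ) (s : ℝ) (y : CIdx J P → ℝ) : ℝ :=
  ∫ z, |S.logZ s y z - S.press P s y| ∂S.law.prod (stdGaussian (EuclideanSpace ℝ (GIdx J P S.D)))

/-- Disorder and replica average. -/
noncomputable def avg (S : Sys J) (s : ℝ) (y : CIdx J P → ℝ) (n : ℕ)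
    (Θ : S.Ω → (Fin n → S.X) → ℝ) : ℝ :=
  ∫ z, (∑ x : Fin n → S.X, (∏ l, Real.exp (S.logw z.1 (x l) + S.ham s y z.1 z.2 (x l))) * Θ z.1 x) /
      (∑ x : S.X, Real.exp (S.logw z.1 x + S.ham s y z.1 z.2 x)) ^ n
    ∂S.law.prod (stdGaussian (EuclideanSpace ℝ (GIdx J P S.D)))

/-- Average of a function of the overlaps. -/
noncomputable def expect (S : Sys J) (s : ℝ) (y : CIdx J P → ℝ) {n : ℕ} (Φ : OArr J n → ℝ) : ℝ :=
  S.avg s y n fun ω x => Φ (S.gram ω x)

end Sys

end Vale.Agent.P166F
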