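import Vale.Agent.P166F.Up.Good
import Vale.Agent.P166F.Ent

/-!
P166: the upper bound. Along the inverse temperature the maximum of the enriched pressure less its
entropy rises no faster than the slope of the path.
-/

namespace Vale.Agent.P166F

open MeasureTheory Filter
open scoped Topology
open Vale.Agent.P166N.Spectrum (OrthInvLaw)

variable {K : ℕ}

/-- Right sums of a continuous function come below its integral up to any error. -/
lemma exists_rightSum_le {f : ℝ → ℝ} {β : ℝ} (hβ : 0 < β) (hf : ContinuousOn f (Set.Icc 0 β)) {ε : ℝ}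
    (hε : 0 < ε) :
    ∃ M : ℕ, 1 ≤ M ∧
      ∑ i ∈ Finset.range M, β / M * f (β * (i + 1) / M) ≤ (∫ s in (0 : ℝ)..β, f s) + ε := by
  obtain ⟨δ, hδ, hu⟩ := Metric.uniformContinuousOn_iff.1
    (isCompact_Icc.uniformContinuousOn_of_continuous hf) (ε / β) (div_pos hε hβ)
  obtain ⟨M, hM⟩ := exists_nat_gt (β / δ)
  have hM0 : (0 : ℝ) < M := (div_pos hβ hδ).trans hM
  refine ⟨M, by exact_mod_cast hM0, ?_⟩
  set q : ℕ → ℝ := fun i => β * i / M with hq
  have hmem : ∀ i ≤ M, q i ∈ Set.Icc (0 : ℝ) β := fun i hi => by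
    refine ⟨by positivity, ?_⟩
    rw [hq, div_le_iff₀ hM0]
    exact mul_le_mul_of_nonneg_left (by exact_mod_cast hi) hβ.le
  have hstep : ∀ i, q (i + 1) = q i + β / M := fun i => by simp only [hq]; push_cast; ring
  have hint : ∀ i < M, IntervalIntegrable f volume (q i) (q (i + 1)) := fun i hi =>
    (hf.mono (Set.uIcc_subset_Icc (hmem i hi.le) (hmem (i + 1) hi))).intervalIntegrable
  have hsum := intervalIntegral.sum_integral_adjacent_intervals hint
  have e0 : q 0 = 0 := by simp [hq]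
  have eM : q M = β := by simp only [hq]; rw [mul_div_assoc, div_self hM0.ne', mul_one]
  rw [e0, eM] at hsum
  have hone : ∀ i ∈ Finset.range M, β / M * f (q (i + 1)) - β / M * (ε / β) ≤
      ∫ s in q i..q (i + 1), f s := fun i hi => by
    have hi' := Finset.mem_range.1 hi
    have hle : q i ≤ q (i + 1) := by rw [hstep]; linarith [div_pos hβ hM0]
    have h := intervalIntegral.integral_mono_on hle intervalIntegrable_const (hint i hi') fun s hs => by
      have hs' : s ∈ Set.Icc (0 : ℝ) β :=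
        ⟨(hmem i hi'.le).1.trans hs.1, hs.2.trans (hmem (i + 1) hi').2⟩
      have hd : dist (q (i + 1)) s < δ := by
        rw [Real.dist_eq, abs_of_nonneg (by linarith [hs.2])]
        have : β / M < δ := by
          rw [div_lt_iff₀ hM0, mul_comm]
          exact (div_lt_iff₀ hδ).1 hM
        linarith [hs.1, hstep i]
      have := (abs_lt.1 ((Real.dist_eq _ _).symm.trans_lt (hu _ (hmem (i + 1) hi') s hs' hd))).2
      show f (q (i + 1)) - ε / β ≤ f s
      linarith
    rw [intervalIntegral.integral_const, smul_eq_mul, hstep, add_sub_cancel_left, mul_sub,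
      ← hstep] at h
    exact h
  have h := Finset.sum_le_sum hone
  rw [hsum, Finset.sum_sub_distrib, Finset.sum_const, Finset.card_range, nsmul_eq_mul,
    show (M : ℝ) * (β / M * (ε / β)) = ε by field_simp] at h
  have e : ∀ i : ℕ, β * ((i : ℝ) + 1) / M = q (i + 1) := fun i => by simp [hq]
  simp only [e]
  linarith

theorem upper_bound (a : Atoms K) {β : ℝ} (hβ : 0 < β) {blk : (N : ℕ) → Fin N → Fin K}
    (hb : Balanced a blk) {ν : (N : ℕ) → Measure (Fin N → Fin N → ℝ)}
    (hν : ∀ N, OrthInvLaw N (ν N)) {k : ℕ} {m p : Fin (k + 1) → ℝ} (hm : Levels m) (hp : Path p)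
    {η : ℝ} (hη : 0 < η) :
    ∀ᶠ N in atTop, meanPress a β blk ν N ≤ energy a.law β (stepLaw m p) + entS m p + η := by
  have hν₀ := olaw_stepLaw hm hp
  obtain ⟨C₀, hC₀⟩ := uSys_dev a β hm
  set C := max C₀ 0 with hCdef
  have hC : DevConst a m β C := fun N blk' ν' hν' t r P s S L y hN ht htβ hr hb' hs hs2 hS hy => by
    refine (hC₀ N blk' ν' hν' t r P s S L y hN ht htβ hr hb' hs hs2 hS hy).mono fun n hn =>
      hn.trans ?_
    have hL : 0 ≤ L := (hb' 0).1.trans (hb' 0).2
    have hs0 : 0 ≤ s := zero_le_one.trans hs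
    gcongr
    exact le_max_left _ _
  obtain ⟨L₀, hL₀⟩ := entS_coercive hm hp (-(β * a.size + 2))
  set L := max L₀ 0 with hLdef
  have hL : ∀ r' : Fin (k + 1) → ℝ, Monotone r' → (∀ l, 0 ≤ r' l) → L ≤ r' (Fin.last k) →
      xbar m r' + pairing m p r' ≤ -(β * a.size + 2) :=
    fun r' h1 h2 h3 => hL₀ r' ⟨h1, h2⟩ ((le_max_left _ _).trans h3)
  obtain ⟨hint, heq⟩ := a.energy_eq hβ.le hν₀
  obtain ⟨M, hM, hR⟩ := exists_rightSum_le hβ
    ((a.continuous_slope hν₀).mono Set.Icc_subset_Ici_self) (show 0 < η / 3 by linarith)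
  rw [heq] at hR
  have hM0 : (0 : ℝ) < M := by exact_mod_cast hM
  set q : ℕ → ℝ := fun i => β * i / M with hq
  have hq0 : ∀ i ≤ M, 0 ≤ q i ∧ q i ≤ β := fun i hi =>
    ⟨by positivity, by rw [hq, div_le_iff₀ hM0]
                       exact mul_le_mul_of_nonneg_left (by exact_mod_cast hi) hβ.le⟩
  set T := (Finset.range (M + 1)).image q with hT
  have hTm : ∀ i ≤ M, q i ∈ T := fun i hi =>
    Finset.mem_image_of_mem q (Finset.mem_range.2 (Nat.lt_succ_of_le hi))
  have hTb : ∀ t ∈ T, 0 ≤ t ∧ t ≤ β := fun t ht => by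
    obtain ⟨i, hi, rfl⟩ := Finset.mem_image.1 ht
    exact hq0 i (Nat.lt_succ_iff.1 (Finset.mem_range.1 hi))
  have hsz : ∀ N : ℕ, ∃ n : ℕ, 1 ≤ N → Sized a (blk N) (hν N) m C L T n := fun N => by
    by_cases hN : 1 ≤ N
    · obtain ⟨n, hn⟩ := exists_size a (blk N) (hν N) hm hN hC T hTb (L := L) (le_max_right _ _)
      exact ⟨n, fun _ => hn⟩
    · exact ⟨0, fun h => absurd h hN⟩
  choose nn hnn using hsz
  choose R hR' Y hY hmax using fun (i N : ℕ) =>
    exists_objF_max a (blk N) (hν N) (nn N) m p L (q i)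
  set V : ℕ → ℕ → ℝ := fun i N => objF a (blk N) (hν N) (nn N) m p (q i) (R i N) (Y i N) with hV
  have hgood : ∀ i ∈ Finset.range M, ∀ᶠ N in atTop,
      ((uSys a (blk N) (hν N) (n := nn N + 1) (by omega) (q (i + 1)) m (R (i + 1) N)).expect (scl N)
        (Y (i + 1) N) (n := 1) fun R => (∑ j, a.lam j * R 0 0 j) / 2) ≤
        a.slope (q (i + 1)) (stepLaw m p) + η / (3 * β) := fun i hi => by
    have hi' : i + 1 ≤ M := Finset.mem_range.1 hi
    exact (goodSeq_max hb hν hm hp (le_max_right _ _) (le_max_right _ _) hL (hTm _ hi') (hq0 _ hi').1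
      (hq0 _ hi').2 (fun N hN => hnn N hN) (R (i + 1)) (Y (i + 1)) (hR' (i + 1)) (hY (i + 1))
      (hmax (i + 1))).energy_le (hq0 _ hi').1 hν₀ (by positivity)
  have hsmall : Tendsto (fun N : ℕ => 2 * (cnum K N * scl N ^ 2 / N) + 1 / (N : ℝ)) atTop (𝓝 0) := by
    simpa using ((tendsto_cost K).const_mul 2).add tendsto_one_div_atTop_nhds_zero_nat
  filter_upwards [(Finset.eventually_all _).2 hgood, eventually_ge_atTop 1,
    hsmall.eventually (eventually_le_nhds (show 0 < η / 3 by linarith))] with N hN hN1 hsm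
  have hN0 : (0 : ℝ) < N := by exact_mod_cast hN1
  have hfirst : V 0 N ≤ entS m p + η / 3 := by
    obtain ⟨hmono, hb'⟩ := rgrid_bounds (le_max_right L₀ 0) (hR' 0 N)
    have h0 := (hnn N hN1 (R 0 N) (hR' 0 N)).1
    have h1 := (press_box a (blk N) (hν N) (nn N) m 0 (R 0 N) (ybox_subset K N (hY 0 N))).2
    have h2 := le_entS hm hp (r := R 0 N) ⟨hmono, fun l => (hb' l).1⟩
    have h3 : 0 ≤ pen K N * (∑ i, (Y 0 N i - 3 / 2 * scl N) ^ 2) / N := by
      have := cnum_nonneg K N
      unfold pen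
      positivity
    have hx : xbar m (R 0 N) = xzero m (R 0 N) - R 0 N (Fin.last k) / 2 := rfl
    have h4 : (uSys a (blk N) (hν N) (n := nn N + 1) (by omega) 0 m (R 0 N)).press (degr N) (scl N)
        (Y 0 N) / N ≤ xzero m (R 0 N) + (2 * (cnum K N * scl N ^ 2 / N) + 1 / (N : ℝ)) := by
      rw [div_le_iff₀ hN0, add_mul, add_mul, mul_assoc 2, div_mul_cancel₀ _ hN0.ne',
        div_mul_cancel₀ _ hN0.ne']
      linarith
    have e : q 0 = 0 := by simp [hq]
    simp only [hV, objF, e]
    linarith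
  have hlast : meanPress a β blk ν N ≤ V M N := by
    have e : q M = β := by simp only [hq]; rw [mul_div_assoc, div_self hM0.ne', mul_one]
    refine (objF_origin a (blk N) (hν N) (nn N) m p hN1 hβ.le).1.trans ?_
    have h := hmax M N 0 (zero_mem_rgrid L) _ (yctr_mem K N)
    rw [← e]
    exact h
  have hstep : ∀ i ∈ Finset.range M, V (i + 1) N - V i N ≤
      β / M * a.slope (β * (i + 1) / M) (stepLaw m p) + β / M * (η / (3 * β)) := fun i hi => by
    have e : q (i + 1) = β * ((i : ℝ) + 1) / M := by simp [hq]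
    rw [← e]
    have h1 := hmax i N (R (i + 1) N) (hR' (i + 1) N) (Y (i + 1) N) (hY (i + 1) N)
    have h2 := press_tangent a (blk N) (hν N) (n := nn N + 1) (by omega) m (R (i + 1) N) (scl N)
      (Y (i + 1) N) (q i) (q (i + 1))
    have hd : q (i + 1) - q i = β / M := by simp only [hq]; push_cast; ring
    rw [hd] at h2
    have h3 := mul_le_mul_of_nonneg_left (hN i hi) (div_pos hβ hM0).le
    have h4 : ((uSys a (blk N) (hν N) (n := nn N + 1) (by omega) (q (i + 1)) m
        (R (i + 1) N)).press (degr N) (scl N) (Y (i + 1) N) -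
        (uSys a (blk N) (hν N) (n := nn N + 1) (by omega) (q i) m (R (i + 1) N)).press (degr N)
          (scl N) (Y (i + 1) N)) / N ≤ β / M * (uSys a (blk N) (hν N) (n := nn N + 1) (by omega)
            (q (i + 1)) m (R (i + 1) N)).expect (scl N) (Y (i + 1) N) (n := 1)
              fun R => (∑ j, a.lam j * R 0 0 j) / 2 := by
      rw [div_le_iff₀ hN0]
      linarith
    simp only [hV, objF, sub_div] at h1 h4 ⊢
    rw [mul_add] at h3
    linarith
  have h := Finset.sum_le_sum hstep
  rw [Finset.sum_range_sub (fun i => V i N), Finset.sum_add_distrib, Finset.sum_const,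
    Finset.card_range, nsmul_eq_mul,
    show (M : ℝ) * (β / M * (η / (3 * β))) = η / 3 by field_simp] at h
  linarith

end Vale.Agent.P166F
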